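import Vale.Agent.P092.H560.Mx.X12
import Vale.Agent.P092.SX.PMain

/-!
P092, [MIX] (M6), part 3 (helper560): a calculus of `C₀(G')`, `G'` any locally compact group, whose
coordinate is bounded on every `Z R`, commutes with the class calculus of the leg.
-/

set_option linter.all false

open scoped InnerProductSpace ENNReal LinearAlgebra.Projectivization Matrix ZeroAtInfty
open Filter Topology ContinuousLinearMap MeasureTheory TopologicalSpace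

namespace Vale.Agent.P092.H560.Mx

open Vale.Agent.P092.RC (Cm GG PG YY)
open Vale.Agent.P092.SN (CY CG)
open Vale.Agent.P092.H100.Gr (Gr)
open Vale.Agent.P092.SX (LegN CalN ClsN LegComm ClsStmt)

variable {kS : Type} [NontriviallyNormedField kS] [ProperSpace kS] [MeasurableSpace kS]
  [BorelSpace kS] {μ : Measure kS} [IsFiniteMeasureOnCompacts μ] [μ.IsOpenPosMeasure]
  {k : Type} [NontriviallyNormedField k] [ProperSpace k] {N : ℕ} {E Γ K : Type}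
  [Group E] [TopologicalSpace E] [Group Γ] [NormedAddCommGroup K] [InnerProductSpace ℂ K]
  [CompleteSpace K] {w : kSˣ} {ι : GG kS N →* E} {a a' : E →* PG kS (N + 1)}
  {π : E →* (K →L[ℂ] K)} {lam : Γ →* (K →L[ℂ] K)} {W : Set (K →L[ℂ] K)} {Ω : K}
  {m : Set Γ → (K →L[ℂ] K)} {q : Γ → GG k N} {Z : ℝ → Set Γ}
  {Ec F : YY kS N → (CY k N →⋆ₐ[ℂ] (K →L[ℂ] K))}
  {G' : Type} [Group G'] [TopologicalSpace G'] [IsTopologicalGroup G'] [LocallyCompactSpace G']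
  [T2Space G'] {q' : Γ → G'} {Q' : C₀(G', ℂ) →⋆ₙₐ[ℂ] (K →L[ℂ] K)}

/-- **(M6)**, with the class calculus `Q` of the leg. -/
theorem x12_cls {G : ∀ j, Gr kS (Fin (N + 1)) j → (CG k N j →⋆ₐ[ℂ] (K →L[ℂ] K))}
    (hL : LegN μ w ι a a' π lam W Ω m q Z Ec F) (hG : CalN ι π lam W q Ec F G)
    (hK : H218.NC.Key₁ G)
    (hq' : ∀ R, ∃ C : Set G', IsCompact C ∧ ∀ γ ∈ Z R, q' γ ∈ C) (cm : ∀ ψ, Cm W (Q' ψ))
    (pc : ∀ g ψ, π (ι g) * Q' ψ = Q' ψ * π (ι g))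
    (cov : ∀ γ (ψ ψ' : C₀(G', ℂ)), (∀ x, ψ' x = ψ ((q' γ)⁻¹ * x)) →
      lam γ * Q' ψ * lam γ⁻¹ = Q' ψ') {σ : kS →+* k}
    {Q : C₀(PG k (N + 1), ℂ) →⋆ₙₐ[ℂ] (K →L[ℂ] K)} (hQ : ClsN a π lam W q Ec σ Q)
    (ψ : C₀(G', ℂ)) (φ : C₀(PG k (N + 1), ℂ)) : Commute (Q' ψ) (Q φ) :=
  SX.clsN_gen hQ (fun b f => x12_lc (μ := μ) hL hG hK hq' cm pc cov b f ψ) φ

/-- **(M6)** from the joints: one leg gives its class calculus, and every abstract letter commutes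
with it. -/
theorem x12_leg (hL : LegN μ w ι a a' π lam W Ω m q Z Ec F) (h1 : LegComm kS k μ)
    (h4 : ClsStmt kS k μ) :
    ∃ (σ : kS →+* k) (Q : C₀(PG k (N + 1), ℂ) →⋆ₙₐ[ℂ] (K →L[ℂ] K)), ClsN a π lam W q Ec σ Q ∧
      ∀ {G' : Type} [Group G'] [TopologicalSpace G'] [IsTopologicalGroup G']
        [LocallyCompactSpace G'] [T2Space G'] (q' : Γ → G')
        (Q' : C₀(G', ℂ) →⋆ₙₐ[ℂ] (K →L[ℂ] K)),
        (∀ R, ∃ C : Set G', IsCompact C ∧ ∀ γ ∈ Z R, q' γ ∈ C) → (∀ ψ, Cm W (Q' ψ)) →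
        (∀ g ψ, π (ι g) * Q' ψ = Q' ψ * π (ι g)) →
        (∀ γ (ψ ψ' : C₀(G', ℂ)), (∀ x, ψ' x = ψ ((q' γ)⁻¹ * x)) →
          lam γ * Q' ψ * lam γ⁻¹ = Q' ψ') → ∀ ψ φ, Commute (Q' ψ) (Q φ) := by
  obtain ⟨G, hG, hK⟩ := h1 w ι a a' π lam W Ω m q Z Ec F hL
  obtain ⟨σ, Q, hQ⟩ := h4 w ι a a' π lam W Ω m q Z Ec F G hL hG hK
  exact ⟨σ, Q, hQ, fun q' Q' hq' cm pc cov ψ φ => x12_cls hL hG hK hq' cm pc cov hQ ψ φ⟩

end Vale.Agent.P092.H560.Mx
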