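import Vale.Agent.P092.H560.Mx.NeB
import Vale.Agent.P092.MX.Join
import Vale.Agent.P092.MX.Defs
import Vale.Agent.P092.H259.Mx.TypP
import Vale.Agent.P092.H259.Fk.Gen
import Vale.Agent.P092.H859.LatQ
import Vale.Agent.P092.H971.PlcAbs

/-!
P092, project MIX (helper560), row (R-NE) for a lattice of
`EM k N G = ∏ PGL_(N j + 1)(k j) × ∏ G b`: nonvanishing, ergodicity, escape at the places `b`.
-/

set_option linter.all false

open scoped InnerProductSpace Topology ENNReal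
open Filter ContinuousLinearMap MeasureTheory

namespace Vale.Agent.P092.H560.Mx

open Vale.Agent.P092.VR (Ov IsRad)
open Vale.Agent.P092.SR (Tri)
open Vale.Agent.P092.SR.St (ICC)
open Vale.Agent.P092.H333.Amp
open Vale.Agent.P092.H333.V
open Vale.Agent.P092.QT.Q (Esc)
open Vale.Agent.P092.RC (GG PG)
open Vale.Agent.P092.SX (EG)
open Vale.Agent.P092.MX (TG EM pM qT)

/-! ### Families over `J ⊕ B` -/

section sum

variable {J B : Type} {A MA : J → Type} {G M : B → Type} [∀ j, Group (A j)] [∀ j, Group (MA j)]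
  [∀ b, Group (G b)] [∀ b, Group (M b)]

/-- the homomorphisms of the factors -/
def phiT (φA : ∀ j, MA j →* A j) (φ : ∀ b, M b →* G b) : ∀ x, TG MA M x →* TG A G x
  | .inl j => φA j
  | .inr b => φ b

/-- the ranks -/
def rkT (rA : J → ℕ) (r : B → ℕ) : J ⊕ B → ℕ
  | .inl j => rA j
  | .inr b => r b

/-- the radicals -/
def RT (RA : ∀ j, Subgroup (A j)) (R : ∀ b, Subgroup (G b)) : ∀ x, Subgroup (TG A G x)
  | .inl j => RA j
  | .inr b => R b

variable {φA : ∀ j, MA j →* A j} {φ : ∀ b, M b →* G b} {rA : J → ℕ} {r : B → ℕ}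
  {RA : ∀ j, Subgroup (A j)} {R : ∀ b, Subgroup (G b)}

theorem ovT [∀ j, TopologicalSpace (A j)] [∀ j, TopologicalSpace (MA j)]
    [∀ b, TopologicalSpace (G b)] [∀ b, TopologicalSpace (M b)] (hA : ∀ j, Ov (φA j) (rA j))
    (h : ∀ b, Ov (φ b) (r b)) : ∀ x, Ov (phiT φA φ x) (rkT rA r x)
  | .inl j => hA j
  | .inr b => h b

theorem radT (hA : ∀ j, IsRad (φA j) (RA j)) (h : ∀ b, IsRad (φ b) (R b)) :
    ∀ x, IsRad (phiT φA φ x) (RT RA R x)
  | .inl j => hA j
  | .inr b => h b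

instance normT [∀ j, (RA j).Normal] [∀ b, (R b).Normal] : ∀ x, (RT RA R x).Normal
  | .inl j => inferInstanceAs (RA j).Normal
  | .inr b => inferInstanceAs (R b).Normal

instance measT [∀ j, MeasurableSpace (A j ⧸ RA j)] [∀ b, MeasurableSpace (G b ⧸ R b)] :
    ∀ x, MeasurableSpace (TG A G x ⧸ RT RA R x)
  | .inl j => inferInstanceAs (MeasurableSpace (A j ⧸ RA j))
  | .inr b => inferInstanceAs (MeasurableSpace (G b ⧸ R b))

instance borelT [∀ j, TopologicalSpace (A j)] [∀ b, TopologicalSpace (G b)]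
    [∀ j, MeasurableSpace (A j ⧸ RA j)] [∀ b, MeasurableSpace (G b ⧸ R b)]
    [∀ j, BorelSpace (A j ⧸ RA j)] [∀ b, BorelSpace (G b ⧸ R b)] :
    ∀ x, BorelSpace (TG A G x ⧸ RT RA R x)
  | .inl j => inferInstanceAs (BorelSpace (A j ⧸ RA j))
  | .inr b => inferInstanceAs (BorelSpace (G b ⧸ R b))

/-- the measures -/
def muT [∀ j, MeasurableSpace (A j ⧸ RA j)] [∀ b, MeasurableSpace (G b ⧸ R b)]
    (μA : ∀ j, Measure (A j ⧸ RA j)) (μ : ∀ b, Measure (G b ⧸ R b)) :
    ∀ x, Measure (TG A G x ⧸ RT RA R x)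
  | .inl j => μA j
  | .inr b => μ b

instance haarT [∀ j, TopologicalSpace (A j)] [∀ b, TopologicalSpace (G b)]
    [∀ j, (RA j).Normal] [∀ b, (R b).Normal]
    [∀ j, MeasurableSpace (A j ⧸ RA j)] [∀ b, MeasurableSpace (G b ⧸ R b)]
    (μA : ∀ j, Measure (A j ⧸ RA j)) (μ : ∀ b, Measure (G b ⧸ R b))
    [∀ j, (μA j).IsHaarMeasure] [∀ b, (μ b).IsHaarMeasure] :
    ∀ x, (muT (RA := RA) (R := R) μA μ x).IsHaarMeasure
  | .inl j => inferInstanceAs (μA j).IsHaarMeasure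
  | .inr b => inferInstanceAs (μ b).IsHaarMeasure

/-- the product of the two products -/
def emE : ((∀ j, A j) × ∀ b, G b) ≃* ∀ x, TG A G x where
  toFun e
    | .inl j => e.1 j
    | .inr b => e.2 b
  invFun f := (fun j => f (.inl j), fun b => f (.inr b))
  left_inv e := rfl
  right_inv f := by
    funext x
    rcases x with j | b <;> rfl
  map_mul' a b := by
    funext x
    rcases x with j | b <;> rfl

variable [∀ j, TopologicalSpace (A j)] [∀ b, TopologicalSpace (G b)]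

theorem cont_emE : Continuous (emE : ((∀ j, A j) × ∀ b, G b) ≃* ∀ x, TG A G x) := by
  refine continuous_pi fun x => ?_
  rcases x with j | b
  · exact (continuous_apply j).comp continuous_fst
  · exact (continuous_apply b).comp continuous_snd

theorem cont_emE' : Continuous (emE : ((∀ j, A j) × ∀ b, G b) ≃* ∀ x, TG A G x).symm := by
  refine Continuous.prodMk ?_ ?_
  · exact continuous_pi fun j => continuous_apply (Sum.inl j : J ⊕ B)
  · exact continuous_pi fun b => continuous_apply (Sum.inr b : J ⊕ B)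

/-- the projections -/
def qE (Γ : Subgroup ((∀ j, A j) × ∀ b, G b)) : ∀ x, Γ →* TG A G x :=
  qT (fun j => (Pi.evalMonoidHom A j).comp ((MonoidHom.fst (∀ j, A j) (∀ b, G b)).comp Γ.subtype))
    fun b => (Pi.evalMonoidHom G b).comp ((MonoidHom.snd (∀ j, A j) (∀ b, G b)).comp Γ.subtype)

theorem qE_inj (Γ : Subgroup ((∀ j, A j) × ∀ b, G b)) (g : Γ) (h : ∀ x, qE Γ x g = 1) : g = 1 :=
  Subtype.ext (Prod.ext (funext fun j => h (.inl j)) (funext fun b => h (.inr b)))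

theorem qE_range (Γ : Subgroup ((∀ j, A j) × ∀ b, G b)) :
    (MonoidHom.pi (qE Γ)).range = Γ.map ((emE : ((∀ j, A j) × ∀ b, G b) ≃* ∀ x, TG A G x) :
      ((∀ j, A j) × ∀ b, G b) →* ∀ x, TG A G x) := by
  have h1 : ∀ g : Γ, MonoidHom.pi (qE Γ) g =
      (emE : ((∀ j, A j) × ∀ b, G b) ≃* ∀ x, TG A G x) (g : (∀ j, A j) × ∀ b, G b) := by
    intro g
    funext x
    rcases x with j | b <;> rfl
  ext y
  constructor
  · rintro ⟨g, rfl⟩
    exact ⟨g.1, g.2, (h1 g).symm⟩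
  · rintro ⟨e, he, rfl⟩
    exact ⟨⟨e, he⟩, h1 ⟨e, he⟩⟩

theorem qE_lat [Finite J] [Finite B] [∀ j, IsTopologicalGroup (A j)]
    [∀ b, IsTopologicalGroup (G b)] [∀ j, T2Space (A j)] [∀ b, T2Space (G b)]
    [∀ j, LocallyCompactSpace (A j)] [∀ b, LocallyCompactSpace (G b)]
    (Γ : Subgroup ((∀ j, A j) × ∀ b, G b)) (h : H515.St.IsLattice Γ) :
    H515.St.IsLattice (MonoidHom.pi (qE Γ)).range := by
  rw [qE_range]
  exact H971.isLattice_equiv emE cont_emE cont_emE' h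

end sum

/-! ### The data of the dense places -/

section em

variable {J B : Type} [Fintype J] [Fintype B] [DecidableEq J] (k : J → Type)
  [∀ j, NontriviallyNormedField (k j)] [∀ j, ProperSpace (k j)] (N : J → ℕ) {M G : B → Type}
  [∀ b, Group (M b)] [∀ b, TopologicalSpace (M b)] [∀ b, Group (G b)]
  [∀ b, TopologicalSpace (G b)] {φ : ∀ b, M b →* G b} {r : B → ℕ} {R : ∀ b, Subgroup (G b)}
  [∀ b, (R b).Normal]

theorem ovG_PG {k : Type} [NontriviallyNormedField k] [ProperSpace k] {N : ℕ}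
    (hk : UN.LocK k) (hN : 2 ≤ N) (hn : ((N + 1 : ℕ) : k) ≠ 0) : H259.Fk.OvG (PG k (N + 1)) :=
  H259.Fk.ovG_clsV (H259.Mx.clsV_typeP ⟨k, inferInstance, N + 1, inferInstance, hk,
    by omega, hn, MonoidHom.id _, Topology.IsClosedEmbedding.id, fun s _ => ⟨s, rfl⟩⟩).1

/-- **The data of the dense places.** -/
theorem data_M (hk : ∀ j, UN.LocK (k j)) (hN : ∀ j, 2 ≤ N j)
    (hn : ∀ j, ((N j + 1 : ℕ) : k j) ≠ 0) (hO : ∀ b, Ov (φ b) (r b))
    (hR : ∀ b, IsRad (φ b) (R b)) (Γ : Subgroup (EM k N G)) (hicc : ICC Γ)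
    (hd : ∀ b, DenseRange fun γ : Γ => (γ : EM k N G).2 b)
    (hdisc : ∀ j, DiscreteTopology (Set.range fun γ : Γ => (γ : EM k N G).1 j))
    (hlat : H515.St.IsLattice Γ) [∀ b, MeasurableSpace (G b ⧸ R b)]
    [∀ b, BorelSpace (G b ⧸ R b)] (μ : ∀ b, Measure (G b ⧸ R b)) [∀ b, (μ b).IsHaarMeasure] :
    (∀ b b', b ≠ b' →
      Esc ((QuotientGroup.mk' (R b)).comp ((pM k N G b).comp Γ.subtype))
        ((QuotientGroup.mk' (R b')).comp ((pM k N G b').comp Γ.subtype))) ∧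
    ErgAllT (fun b => (QuotientGroup.mk' (R b)).comp ((pM k N G b).comp Γ.subtype)) ∧
    NeAllT (fun b => (QuotientGroup.mk' (R b)).comp ((pM k N G b).comp Γ.subtype)) μ := by
  choose MA gA tA φA rA hA using fun j => ovG_PG (hk j) (hN j) (hn j)
  choose RA hRA using fun j => exists_rad (hA j)
  haveI := fun j => (hRA j).normal
  haveI := fun b => (hO b).top
  haveI := fun b => Ov.t2 (hO b)
  haveI := fun b => Ov.lc (hO b)
  haveI : ∀ j, T2Space (PG (k j) (N j + 1)) := fun j => Ov.t2 (hA j)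
  haveI : ∀ j, LocallyCompactSpace (PG (k j) (N j + 1)) := fun j => Ov.lc (hA j)
  have h := ovT hA hO
  have hR' := radT hRA hR
  have hlat' := qE_lat (A := fun j => PG (k j) (N j + 1)) Γ hlat
  have hinj := qE_inj (A := fun j => PG (k j) (N j + 1)) Γ
  refine ⟨fun b b' hb => ?_, ?_, ?_⟩
  · obtain ⟨w, h1, h2⟩ := esc_fam h hR' (qE Γ) hlat' (.inr b')
    exact ⟨w, h1 (.inr b) fun e => hb (Sum.inr_injective e), h2⟩
  · intro Λ _ _ I _ α hα hΛ b β hβ
    exact erg_fam h hR' (qE Γ) hinj hlat' hicc (.inr b) (hd b) hα hβ hΛ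
  · intro Λ _ _ I _ α hα hΛ b β hβ
    letI : ∀ j, MeasurableSpace (PG (k j) (N j + 1) ⧸ RA j) := fun j => borel _
    haveI : ∀ j, BorelSpace (PG (k j) (N j + 1) ⧸ RA j) := fun j => ⟨rfl⟩
    haveI : ∀ j, LocallyCompactSpace (PG (k j) (N j + 1) ⧸ RA j) := fun j =>
      lc_quo (hA j) (hRA j)
    haveI : ∀ j, IsTopologicalGroup (PG (k j) (N j + 1) ⧸ RA j) := fun j =>
      tg_quo (hA j) (hRA j)
    obtain ⟨x, hx, hne⟩ := neMix_fam h hR' (qE Γ) hinj hlat' hicc (.inr b) (hd b)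
      (muT (A := fun j => PG (k j) (N j + 1)) (RA := RA) (R := R) (fun j => Measure.haar) μ)
      hα hβ hΛ
    rcases x with j | b'
    · exact absurd (hdisc j) hx
    · exact ⟨b', hne⟩

/-- **The measure of the lattice.** -/
theorem lat_M [IsTopologicalGroup (EM k N G)] [LocallyCompactSpace (EM k N G)]
    [SecondCountableTopology (EM k N G)] [T2Space (EM k N G)] [MeasurableSpace (EM k N G)]
    [BorelSpace (EM k N G)] (Γ : Subgroup (EM k N G)) (hlat : H515.St.IsLattice Γ) :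
    ∃ m : Measure (EM k N G), PA.Lat Γ.subtype m := by
  refine H859.exists_lat Γ.subtype Γ.subtype_injective ?_
  rw [Γ.range_subtype]
  exact ⟨hlat.disc, hlat.covol⟩

end em

end Vale.Agent.P092.H560.Mx
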