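import Vale.Agent.P092.H515.LatSl

/-!
P092, project MIX (helper560): a lattice which is contained in a closed unimodular subgroup is a
lattice of it.
-/

set_option linter.all false

open scoped ENNReal Pointwise
open MeasureTheory Filter Topology Set Measure

namespace Vale.Agent.P092.H560.Mx

open Vale.Agent.P092.H515

/-- **A lattice which is contained in a closed unimodular subgroup is a lattice of it.** -/
theorem isLattice_closed {E E' : Type} [Group E] [TopologicalSpace E] [IsTopologicalGroup E]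
    [LocallyCompactSpace E] [SecondCountableTopology E] [T2Space E] [Group E']
    [TopologicalSpace E'] [IsTopologicalGroup E'] [LocallyCompactSpace E']
    [SecondCountableTopology E'] [T2Space E'] [MeasurableSpace E'] [BorelSpace E']
    (μ' : Measure E') [IsHaarMeasure μ'] [IsMulRightInvariant μ'] (ι : E' →* E)
    (hι : IsClosedEmbedding ι) (Γ' : Subgroup E') (hlat : IsLattice (Γ'.map ι)) :
    IsLattice Γ' := by
  classical
  have hd := hlat.disc
  haveI hdΓ : DiscreteTopology Γ' := by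
    have hf : Continuous fun y : Γ' => (⟨ι y, y, y.2, rfl⟩ : Γ'.map ι) :=
      (hι.continuous.comp continuous_subtype_val).subtype_mk _
    refine DiscreteTopology.of_continuous_injective hf ?_
    intro y y' hyy
    exact Subtype.ext (hι.injective (congrArg Subtype.val hyy))
  borelize E
  let _ : MeasurableSpace (E ⧸ Γ'.map ι) := borel _
  have _ : BorelSpace (E ⧸ Γ'.map ι) := ⟨rfl⟩
  obtain ⟨ν, hP, hν⟩ := hlat.exists_prob
  obtain ⟨μ, hμ⟩ : ∃ μ : Measure E, μ = haar := ⟨_, rfl⟩
  have hH : IsHaarMeasure μ := by rw [hμ]; infer_instance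
  have hr := right_invariant (Γ'.map ι) ν hν μ
  obtain ⟨F, hF⟩ : ∃ F : Set E, F = fdom (Γ'.map ι) := ⟨_, rfl⟩
  have hFm : MeasurableSet F := by rw [hF]; exact fdom_meas _
  have hFlt : μ F < ∞ := by rw [hF]; exact fdom_lt_top _ ν hν μ
  obtain ⟨C, hC, hC1⟩ := exists_compact_mem_nhds (1 : E)
  have hCm : MeasurableSet C := hC.isClosed.measurableSet
  have hCpos : 0 < μ C := measure_pos_of_mem_nhds μ hC1
  have hιc : Continuous ι := hι.continuous
  -- the two sets
  obtain ⟨S, hS⟩ : ∃ S : Set (E × E'), S = {z | z.1 ∈ C ∧ z.1 * ι z.2 ∈ F} := ⟨_, rfl⟩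
  obtain ⟨T, hT⟩ : ∃ T : Set (E × E'), T = {z | z.1 * (ι z.2)⁻¹ ∈ C ∧ z.1 ∈ F} := ⟨_, rfl⟩
  have hSm : MeasurableSet S := by
    rw [hS]
    have h1 : Continuous fun z : E × E' => z.1 * ι z.2 := by fun_prop
    exact (measurable_fst hCm).inter (h1.measurable hFm)
  have hTm : MeasurableSet T := by
    rw [hT]
    have h1 : Continuous fun z : E × E' => z.1 * (ι z.2)⁻¹ := by fun_prop
    exact (h1.measurable hCm).inter (measurable_fst hFm)
  have hST : (μ.prod μ') S = (μ.prod μ') T := by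
    rw [Measure.prod_apply_symm hSm, Measure.prod_apply_symm hTm]
    refine lintegral_congr fun h => ?_
    have h1 : (fun x => (x, h)) ⁻¹' S = (fun x => x * ι h) ⁻¹' ((fun x => (x, h)) ⁻¹' T) := by
      ext x
      rw [hS, hT]
      simp only [mem_preimage, mem_setOf_eq, mul_inv_cancel_right]
    rw [h1, measure_preimage_mul_right]
  -- the bound
  obtain ⟨K, hK⟩ : ∃ K : Set E', K = ι ⁻¹' (C⁻¹ * C) := ⟨_, rfl⟩
  have hKc : IsCompact K := by
    rw [hK]
    exact hι.isCompact_preimage (hC.inv.mul hC)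
  have hKlt : μ' K < ∞ := hKc.measure_lt_top
  have hb : ∀ y, μ' (Prod.mk y ⁻¹' T) ≤ F.indicator (fun _ => μ' K) y := by
    intro y
    by_cases hy : y ∈ F
    · rw [indicator_of_mem hy]
      rcases (Prod.mk y ⁻¹' T).eq_empty_or_nonempty with he | ⟨h₀, hh₀⟩
      · rw [he, measure_empty]
        exact zero_le
      · have h1 : Prod.mk y ⁻¹' T ⊆ (fun h => h * h₀⁻¹) ⁻¹' K := by
          intro h hh
          rw [hT] at hh hh₀
          rw [hK]
          have h2 : y * (ι h)⁻¹ ∈ C := hh.1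
          have h3 : y * (ι h₀)⁻¹ ∈ C := hh₀.1
          change ι (h * h₀⁻¹) ∈ C⁻¹ * C
          refine Set.mem_mul.2 ⟨(y * (ι h)⁻¹)⁻¹, Set.inv_mem_inv.2 h2, y * (ι h₀)⁻¹, h3, ?_⟩
          rw [map_mul, map_inv]
          group
        calc μ' (Prod.mk y ⁻¹' T) ≤ μ' ((fun h => h * h₀⁻¹) ⁻¹' K) := measure_mono h1
          _ = μ' K := measure_preimage_mul_right μ' _ _
    · have h1 : Prod.mk y ⁻¹' T = ∅ := by
        ext h
        rw [hT]
        simp [hy]
      rw [h1, measure_empty]
      exact zero_le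
  have hfin : (μ.prod μ') S < ∞ := by
    rw [hST, Measure.prod_apply hTm]
    calc ∫⁻ y, μ' (Prod.mk y ⁻¹' T) ∂μ ≤ ∫⁻ y, F.indicator (fun _ => μ' K) y ∂μ :=
          lintegral_mono hb
      _ = μ' K * μ F := by rw [lintegral_indicator_const hFm]
      _ < ∞ := ENNReal.mul_lt_top hKlt hFlt
  -- a good point
  obtain ⟨x, hx⟩ : ∃ x, μ' {h | x * ι h ∈ F} < ∞ := by
    by_contra hcon
    push Not at hcon
    rw [Measure.prod_apply hSm] at hfin
    have h1 : ∀ x, C.indicator (fun _ => (∞ : ℝ≥0∞)) x ≤ μ' (Prod.mk x ⁻¹' S) := by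
      intro x
      by_cases hxC : x ∈ C
      · rw [indicator_of_mem hxC]
        have h2 : Prod.mk x ⁻¹' S = {h | x * ι h ∈ F} := by
          ext h
          rw [hS]
          simp [hxC]
        rw [h2]
        exact hcon x
      · rw [indicator_of_notMem hxC]
        exact zero_le
    have h3 : ∫⁻ x, C.indicator (fun _ => (∞ : ℝ≥0∞)) x ∂μ < ∞ := (lintegral_mono h1).trans_lt hfin
    rw [lintegral_indicator_const hCm, ENNReal.top_mul hCpos.ne'] at h3
    exact lt_irrefl _ h3
  refine isLattice_of_cover Γ' μ' hx fun h => ?_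
  obtain ⟨v, hv, -⟩ := existsUnique_right (Γ'.map ι) (x * ι h)
  obtain ⟨w, hw, hwv⟩ := v.2
  refine ⟨⟨w, hw⟩, ?_⟩
  change x * ι (h * w) ∈ F
  rw [map_mul, hwv, ← mul_assoc, hF]
  exact hv

end Vale.Agent.P092.H560.Mx
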