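import Vale.Agent.P092.H560.Mx.NeM
import Vale.Agent.P092.H560.Mx.LatC

/-!
P092, project MIX (helper560), row (R-NE) without the condition `n ≠ 0` at the discrete places: the
discrete places are closed subgroups `H j` of `PGL_(N j + 1)(k j)` which are overgroups of factors.
-/

set_option linter.all false

open scoped InnerProductSpace Topology ENNReal
open Filter ContinuousLinearMap MeasureTheory

namespace Vale.Agent.P092.H560.Mx

open Vale.Agent.P092.VR (Ov IsRad)
open Vale.Agent.P092.SR.St (ICC)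
open Vale.Agent.P092.PA (FacS)
open Vale.Agent.P092.H259 (PQ pq)
open Vale.Agent.P092.H333.Amp
open Vale.Agent.P092.H333.V
open Vale.Agent.P092.QT.Q (Esc)
open Vale.Agent.P092.RC (GG PG)
open Vale.Agent.P092.SX (EG)
open Vale.Agent.P092.MX (TG EM pM qT)

/-! ### Unimodularity -/

section rinv

variable {M E : Type} [Group M] [TopologicalSpace M] [Group E] [TopologicalSpace E] {φ : M →* E}
  {r : ℕ}

/-- Homomorphisms of an overgroup to the positive reals are trivial. -/
theorem ov_hom (h : Ov φ r) (f : E →* NNReal) (g : E) : f g = 1 := by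
  haveI := h.fin
  haveI := h.normal
  haveI := h.qf.fin
  -- the homomorphism of the factor
  obtain ⟨F, hF⟩ : ∃ F : M →* NNRealˣ, F = (f.comp φ).toHomUnits := ⟨_, rfl⟩
  have hFf : ∀ m, ((F m : NNRealˣ) : NNReal) = f (φ m) := by
    intro m
    rw [hF]
    rfl
  have hz : ∀ z ∈ Subgroup.center M, F z = 1 := by
    intro z hz
    have h1 : IsOfFinOrder (⟨z, hz⟩ : Subgroup.center M) := isOfFinOrder_of_finite _
    obtain ⟨n, hn, h2⟩ := isOfFinOrder_iff_pow_eq_one.1 h1
    have h3 : z ^ n = 1 := congrArg Subtype.val h2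
    have h4 : ((F z : NNRealˣ) : NNReal) ^ n = 1 := by
      rw [← Units.val_pow_eq_pow_val, ← map_pow, h3, map_one, Units.val_one]
    exact Units.ext ((pow_eq_one_iff_of_nonneg (zero_le) hn.ne').1 h4)
  have h1 : ∀ m, F m = 1 := by
    intro m
    have h2 := h.qf.fac.hom _ (QuotientGroup.lift (Subgroup.center M) F fun z hz' => hz z hz')
    have h3 := congrArg (fun q : PQ M →* NNRealˣ => q (m : PQ M)) h2
    exact h3
  have h2 : g ^ φ.range.index ∈ φ.range := Subgroup.pow_index_mem φ.range g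
  obtain ⟨m, hm⟩ := h2
  have h3 : f g ^ φ.range.index = 1 := by
    rw [← map_pow, ← hm, ← hFf, h1, Units.val_one]
  exact (pow_eq_one_iff_of_nonneg (zero_le) (Subgroup.FiniteIndex.index_ne_zero)).1 h3

/-- **Haar measures of finite products of overgroups are right invariant.** -/
theorem rinv_pi {I : Type} [Fintype I] {M E : I → Type} [∀ i, Group (M i)]
    [∀ i, TopologicalSpace (M i)] [∀ i, Group (E i)] [∀ i, TopologicalSpace (E i)]
    {φ : ∀ i, M i →* E i} {r : I → ℕ} (h : ∀ i, Ov (φ i) (r i))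
    [MeasurableSpace (∀ i, E i)] [BorelSpace (∀ i, E i)] (μ : Measure (∀ i, E i))
    [μ.IsHaarMeasure] : μ.IsMulRightInvariant := by
  classical
  haveI := fun i => (h i).top
  haveI := fun i => Ov.lc (h i)
  haveI := fun i => Ov.sc (h i)
  haveI := fun i => Ov.t2 (h i)
  refine ⟨fun g => ?_⟩
  haveI : Measure.InnerRegular μ := by
    haveI : Measure.Regular μ := inferInstance
    infer_instance
  have h1 : Measure.modularCharacterFun g = 1 := by
    have h2 : g ∈ (Measure.modularCharacter (G := ∀ i, E i)).ker := by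
      refine Subgroup.pi_mem_of_mulSingle_mem g fun i => ?_
      rw [MonoidHom.mem_ker]
      exact ov_hom (h i) ((Measure.modularCharacter (G := ∀ i, E i)).comp
        (MonoidHom.mulSingle E i)) (g i)
    exact h2
  rw [Measure.map_right_mul_eq_modularCharacterFun_smul, h1, one_smul]

end rinv

/-! ### Closed subgroups at the places `J` -/

section clo

variable {J B : Type} {A : J → Type} {G : B → Type} [∀ j, Group (A j)] [∀ b, Group (G b)]
  [∀ j, TopologicalSpace (A j)] [∀ b, TopologicalSpace (G b)] (H : ∀ j, Subgroup (A j))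

/-- the element of `A j` -/
def vH (j : J) (y : TG (fun j => H j) G (.inl j)) : A j := Subtype.val (p := fun x => x ∈ H j) y

/-- the inclusion of the product of the subgroups -/
def iotH : (∀ x, TG (fun j => H j) G x) →* (∀ j, A j) × ∀ b, G b where
  toFun f := (fun j => vH H j (f (.inl j)), fun b => f (.inr b))
  map_one' := rfl
  map_mul' a b := rfl

theorem cemb_iotH (hcl : ∀ j, IsClosed (H j : Set (A j))) :
    Topology.IsClosedEmbedding (iotH (G := G) H) := by
  have h1 : Topology.IsClosedEmbedding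
      (Prod.map (Pi.map fun j => (Subtype.val : H j → A j)) (id : (∀ b, G b) → ∀ b, G b)) :=
    Topology.IsClosedEmbedding.prodMap
      (Topology.IsClosedEmbedding.piMap fun j => (hcl j).isClosedEmbedding_subtypeVal)
      Topology.IsClosedEmbedding.id
  let e : ((∀ j, H j) × ∀ b, G b) ≃ₜ ∀ x, TG (fun j => H j) G x :=
    { (emE : ((∀ j, H j) × ∀ b, G b) ≃* ∀ x, TG (fun j => H j) G x) with
      continuous_toFun := cont_emE
      continuous_invFun := cont_emE' }
  exact h1.comp e.symm.isClosedEmbedding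

variable {H} (Γ : Subgroup ((∀ j, A j) × ∀ b, G b))
  (hin : ∀ (j) (γ : Γ), (γ : (∀ j, A j) × ∀ b, G b).1 j ∈ H j)

/-- the projections -/
def qH : ∀ x, Γ →* TG (fun j => H j) G x :=
  qT (fun j => ((Pi.evalMonoidHom A j).comp
      ((MonoidHom.fst (∀ j, A j) (∀ b, G b)).comp Γ.subtype)).codRestrict (H j) (hin j))
    fun b => (Pi.evalMonoidHom G b).comp ((MonoidHom.snd (∀ j, A j) (∀ b, G b)).comp Γ.subtype)

theorem qH_inj (g : Γ) (h : ∀ x, qH Γ hin x g = 1) : g = 1 :=
  Subtype.ext (Prod.ext (funext fun j => congrArg Subtype.val (h (.inl j)))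
    (funext fun b => h (.inr b)))

theorem qH_range : (MonoidHom.pi (qH Γ hin)).range.map (iotH H) = Γ := by
  ext y
  constructor
  · rintro ⟨_, ⟨g, rfl⟩, rfl⟩
    exact g.2
  · intro hy
    exact ⟨_, ⟨⟨y, hy⟩, rfl⟩, rfl⟩

theorem qH_disc (j : J) (hd : DiscreteTopology (Set.range fun γ : Γ =>
    (γ : (∀ j, A j) × ∀ b, G b).1 j)) : DiscreteTopology (Set.range (qH Γ hin (.inl j))) := by
  have hf : Continuous fun y : Set.range (qH Γ hin (.inl j)) =>
      (⟨vH H j y.1, by
        obtain ⟨g, hg⟩ := y.2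
        exact ⟨g, congrArg (vH H j) hg⟩⟩ :
        Set.range fun γ : Γ => (γ : (∀ j, A j) × ∀ b, G b).1 j) := by
    refine Continuous.subtype_mk ?_ _
    exact continuous_subtype_val.comp continuous_subtype_val
  refine DiscreteTopology.of_continuous_injective hf ?_
  intro y y' hyy
  have h1 : vH H j y.1 = vH H j y'.1 := by
    have h2 := Subtype.ext_iff.1 hyy
    exact h2
  exact Subtype.ext (Subtype.ext (p := fun x => x ∈ H j) h1)

end clo

/-! ### The data of the dense places -/

section em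

variable {J B : Type} [Fintype J] [Fintype B] [DecidableEq J] (k : J → Type)
  [∀ j, NontriviallyNormedField (k j)] [∀ j, ProperSpace (k j)] (N : J → ℕ) {M G : B → Type}
  [∀ b, Group (M b)] [∀ b, TopologicalSpace (M b)] [∀ b, Group (G b)]
  [∀ b, TopologicalSpace (G b)] {φ : ∀ b, M b →* G b} {r : B → ℕ} {R : ∀ b, Subgroup (G b)}
  [∀ b, (R b).Normal]

/-- **The data of the dense places**, discrete places contained in overgroups of factors. -/
theorem data_H (H : ∀ j, Subgroup (PG (k j) (N j + 1)))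
    (hcl : ∀ j, IsClosed (H j : Set (PG (k j) (N j + 1))))
    (hov : ∀ j, H259.Fk.OvG (H j)) (hO : ∀ b, Ov (φ b) (r b))
    (hR : ∀ b, IsRad (φ b) (R b)) (Γ : Subgroup (EM k N G))
    (hin : ∀ (j) (γ : Γ), (γ : EM k N G).1 j ∈ H j) (hicc : ICC Γ)
    (hd : ∀ b, DenseRange fun γ : Γ => (γ : EM k N G).2 b)
    (hdisc : ∀ j, DiscreteTopology (Set.range fun γ : Γ => (γ : EM k N G).1 j))
    (hlat : H515.St.IsLattice Γ) [∀ b, MeasurableSpace (G b ⧸ R b)]
    [∀ b, BorelSpace (G b ⧸ R b)] (μ : ∀ b, Measure (G b ⧸ R b)) [∀ b, (μ b).IsHaarMeasure] :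
    (∀ b b', b ≠ b' →
      Esc ((QuotientGroup.mk' (R b)).comp ((pM k N G b).comp Γ.subtype))
        ((QuotientGroup.mk' (R b')).comp ((pM k N G b').comp Γ.subtype))) ∧
    ErgAllT (fun b => (QuotientGroup.mk' (R b)).comp ((pM k N G b).comp Γ.subtype)) ∧
    NeAllT (fun b => (QuotientGroup.mk' (R b)).comp ((pM k N G b).comp Γ.subtype)) μ := by
  choose MA gA tA φA rA hA using hov
  choose RA hRA using fun j => exists_rad (hA j)
  haveI := fun j => (hRA j).normal
  haveI := fun b => (hO b).top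
  haveI := fun b => Ov.t2 (hO b)
  haveI := fun b => Ov.lc (hO b)
  haveI := fun b => Ov.sc (hO b)
  haveI : ∀ j, T2Space (PG (k j) (N j + 1)) := fun j => H188.LatP.t2_pg _ _
  haveI : ∀ j, SecondCountableTopology (PG (k j) (N j + 1)) := fun j => H188.LatP.sc_pg _ _
  haveI : ∀ j, LocallyCompactSpace (PG (k j) (N j + 1)) := fun j => H188.LatP.lc_pg _ _
  haveI : ∀ j, LocallyCompactSpace (H j) := fun j => Ov.lc (hA j)
  haveI : ∀ j, SecondCountableTopology (H j) := fun j => Ov.sc (hA j)
  have h := ovT hA hO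
  have hR' := radT hRA hR
  have hinj := qH_inj (A := fun j => PG (k j) (N j + 1)) Γ hin
  have hlat' : H515.St.IsLattice
      (MonoidHom.pi (qH (A := fun j => PG (k j) (N j + 1)) Γ hin)).range := by
    letI : MeasurableSpace (∀ x, TG (fun j => H j) G x) := borel _
    haveI : BorelSpace (∀ x, TG (fun j => H j) G x) := ⟨rfl⟩
    haveI : (Measure.haar : Measure (∀ x, TG (fun j => H j) G x)).IsMulRightInvariant :=
      rinv_pi h _
    have h1 := isLattice_closed (Measure.haar : Measure (∀ x, TG (fun j => H j) G x))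
      (iotH (A := fun j => PG (k j) (N j + 1)) (G := G) H)
      (cemb_iotH (A := fun j => PG (k j) (N j + 1)) (G := G) H hcl)
      (MonoidHom.pi (qH (A := fun j => PG (k j) (N j + 1)) Γ hin)).range (by
        rw [qH_range]
        exact ⟨hlat.disc, hlat.covol⟩)
    exact ⟨h1.disc, h1.covol⟩
  refine ⟨fun b b' hb => ?_, ?_, ?_⟩
  · obtain ⟨w, h1, h2⟩ := esc_fam h hR' (qH Γ hin) hlat' (.inr b')
    exact ⟨w, h1 (.inr b) fun e => hb (Sum.inr_injective e), h2⟩
  · intro Λ _ _ I _ α hα hΛ b β hβ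
    exact erg_fam h hR' (qH Γ hin) hinj hlat' hicc (.inr b) (hd b) hα hβ hΛ
  · intro Λ _ _ I _ α hα hΛ b β hβ
    letI : ∀ j, MeasurableSpace (H j ⧸ RA j) := fun j => borel _
    haveI : ∀ j, BorelSpace (H j ⧸ RA j) := fun j => ⟨rfl⟩
    haveI : ∀ j, LocallyCompactSpace (H j ⧸ RA j) := fun j => lc_quo (hA j) (hRA j)
    haveI : ∀ j, IsTopologicalGroup (H j ⧸ RA j) := fun j => tg_quo (hA j) (hRA j)
    obtain ⟨x, hx, hne⟩ := neMix_fam h hR' (qH Γ hin) hinj hlat' hicc (.inr b) (hd b)
      (muT (A := fun j => H j) (RA := RA) (R := R) (fun j => Measure.haar) μ) hα hβ hΛ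
    rcases x with j | b'
    · exact absurd (qH_disc Γ hin j (hdisc j)) hx
    · exact ⟨b', hne⟩

end em

end Vale.Agent.P092.H560.Mx
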