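import Vale.Agent.P092.H35.Mx.KAll
import Vale.Agent.P092.H560.Mx.NeH
import Vale.Agent.P092.H144.Mp.Ovh
import Vale.Agent.P092.H962.MX.PMa

/-!
P092, project MIX (helper560; the proof of `exN_F` is helper971's proof of `VM.exN_M`): the N-half of
MIX for finitely generated lattices, without the condition `n ≠ 0` at the discrete places.
-/

set_option linter.all false

open scoped InnerProductSpace ENNReal LinearAlgebra.Projectivization ZeroAtInfty
open Filter Topology ContinuousLinearMap MeasureTheory TopologicalSpace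

namespace Vale.Agent.P092.H560.Mx

open Vale.Agent.P092.MX (EM iM pM ExN KCalAll)
open Vale.Agent.P092.SX (EG)
open Vale.Agent.P092.RC (GG PG)
open Vale.Agent.P092.VR (Ov IsRad)
open Vale.Agent.P092.H333.V
open Vale.Agent.P092.H333.Amp (ErgAllT NeAllT)
open Vale.Agent.P092.QT.Q (Esc)
open Vale.Agent.P092.H962.MX (pT)

section data

variable {J B : Type} [Fintype J] [Fintype B] [DecidableEq J] (k : J → Type)
  [∀ j, NontriviallyNormedField (k j)] [∀ j, ProperSpace (k j)] (N : J → ℕ) {M G : B → Type}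
  [∀ b, Group (M b)] [∀ b, TopologicalSpace (M b)] [∀ b, Group (G b)]
  [∀ b, TopologicalSpace (G b)] {φ : ∀ b, M b →* G b} {r : B → ℕ} {R : ∀ b, Subgroup (G b)}
  [∀ b, (R b).Normal]

/-- **The data of the dense places**, finitely generated lattices, every characteristic. -/
theorem data_F (hk : ∀ j, UN.LocK (k j)) (hN : ∀ j, 2 ≤ N j) (hO : ∀ b, Ov (φ b) (r b))
    (hR : ∀ b, IsRad (φ b) (R b)) (Γ : Subgroup (EM k N G)) (hfg : Group.FG Γ)
    (hicc : SR.St.ICC Γ) (hd : ∀ b, DenseRange fun γ : Γ => (γ : EM k N G).2 b)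
    (hdisc : ∀ j, DiscreteTopology (Set.range fun γ : Γ => (γ : EM k N G).1 j))
    (hlat : H515.St.IsLattice Γ) [∀ b, MeasurableSpace (G b ⧸ R b)]
    [∀ b, BorelSpace (G b ⧸ R b)] (μ : ∀ b, Measure (G b ⧸ R b)) [∀ b, (μ b).IsHaarMeasure] :
    (∀ b b', b ≠ b' →
      Esc ((QuotientGroup.mk' (R b)).comp ((pM k N G b).comp Γ.subtype))
        ((QuotientGroup.mk' (R b')).comp ((pM k N G b').comp Γ.subtype))) ∧
    ErgAllT (fun b => (QuotientGroup.mk' (R b)).comp ((pM k N G b).comp Γ.subtype)) ∧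
    NeAllT (fun b => (QuotientGroup.mk' (R b)).comp ((pM k N G b).comp Γ.subtype)) μ := by
  have key : ∀ j, ∃ H : Subgroup (PG (k j) (N j + 1)), IsClosed (H : Set (PG (k j) (N j + 1))) ∧
      H259.Fk.OvG H ∧ ∀ γ : Γ, (γ : EM k N G).1 j ∈ H := by
    intro j
    obtain ⟨H, -, hc, -, hp, -, hv⟩ := H144.Mp.exists_ovH (hk j)
      (show 2 ≤ N j + 1 by have := hN j; omega) hfg
      ((Pi.evalMonoidHom (fun j => PG (k j) (N j + 1)) j).comp
        ((MonoidHom.fst (EG k N) (∀ b, G b)).comp Γ.subtype))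
    exact ⟨H, hc, H259.Fk.ovG_clsV hv, fun γ => hp ⟨γ, rfl⟩⟩
  choose H hcl hov hin using key
  exact data_H k N H hcl hov hO hR Γ hin hicc hd hdisc hlat μ

end data

/-- **The N-half of MIX**, finitely generated lattices, every characteristic. -/
theorem exN_F {J B : Type} [Fintype J] [DecidableEq J] [Fintype B] (k : J → Type)
    [∀ j, NontriviallyNormedField (k j)] [∀ j, ProperSpace (k j)] (N : J → ℕ) {M G : B → Type}
    [∀ b, Group (M b)] [∀ b, TopologicalSpace (M b)] [∀ b, Group (G b)]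
    [∀ b, TopologicalSpace (G b)] [∀ b, IsTopologicalGroup (G b)] [∀ b, T2Space (G b)]
    [∀ b, LocallyCompactSpace (G b)] [∀ b, SecondCountableTopology (G b)]
    {φ : ∀ b, M b →* G b} {r : B → ℕ} {R : ∀ b, Subgroup (G b)} [∀ b, (R b).Normal]
    (hk : ∀ j, UN.LocK (k j)) (hN : ∀ j, 2 ≤ N j)
    (hO : ∀ b, Ov (φ b) (r b)) (hR : ∀ b, IsRad (φ b) (R b)) (Γ : Subgroup (EM k N G))
    (hfg : Group.FG Γ)
    (hicc : SR.St.ICC Γ) (hd : ∀ b, DenseRange fun γ : Γ => (γ : EM k N G).2 b)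
    (hD : ∀ j, DiscreteTopology (Set.range fun γ : Γ => (γ : EM k N G).1 j))
    (hlat : H515.St.IsLattice Γ) : ExN (iM k N G) Γ (pT R Γ) := by
  classical
  have h : KCalAll (iM k N G) Γ (pT R Γ) := by
    haveI := fun b => (hR b).fin
    haveI := fun b => tg_quo (hO b) (hR b)
    haveI := fun b => lc_quo (hO b) (hR b)
    haveI := fun b => sc_quo (hO b) (hR b)
    haveI := fun b => t2_quo (hO b) (hR b)
    letI : ∀ b, MeasurableSpace (G b ⧸ R b) := fun b => borel _
    haveI : ∀ b, BorelSpace (G b ⧸ R b) := fun b => ⟨rfl⟩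
    haveI : ∀ b, (Measure.haar : Measure (G b ⧸ R b)).IsMulRightInvariant := fun b =>
      rinv_quo (hO b) (hR b) _
    letI : MeasurableSpace (EM k N G) := borel _
    haveI : BorelSpace (EM k N G) := ⟨rfl⟩
    obtain ⟨m, hm⟩ := lat_M k N Γ hlat
    obtain ⟨he, hE, hne⟩ := data_F k N hk hN hO hR Γ hfg hicc hd hD hlat
      (fun b => (Measure.haar : Measure (G b ⧸ R b)))
    intro Λ _ _ hΛ I _ α hα
    refine H35.Mx.kcalAll VR.blkV hicc (pT R Γ) (fun b => Measure.haar)
      (fun b => (QuotientGroup.mk' (R b)).comp (pM k N G b)) (fun b => ?_) (fun b γ => rfl)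
      (fun b j g => ?_) (fun b b' hb x => ?_) m hm (fun b => facV_quo (hO b) (hR b))
      (fun b => ?_) he (@hE) (@hne) hΛ hα
    · exact QuotientGroup.continuous_mk.comp ((continuous_apply b).comp continuous_snd)
    · change (QuotientGroup.mk' (R b)) (pM k N G b (iM k N G j g)) = 1
      rw [MX.pM_iM, map_one]
    · obtain ⟨g, rfl⟩ := QuotientGroup.mk'_surjective (R b) x
      refine ⟨(1, Pi.mulSingle b g), ?_, ?_⟩
      · change (QuotientGroup.mk' (R b)) (Pi.mulSingle b g b) = _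
        rw [Pi.mulSingle_eq_same]
      · change (QuotientGroup.mk' (R b')) (Pi.mulSingle b g b') = _
        rw [Pi.mulSingle_eq_of_ne (Ne.symm hb), map_one]
    · exact (QuotientGroup.mk'_surjective (R b)).denseRange.comp (hd b)
        QuotientGroup.continuous_mk
  haveI := fun b => (hR b).fin
  haveI := fun b => tg_quo (hO b) (hR b)
  haveI := fun b => lc_quo (hO b) (hR b)
  haveI := fun b => sc_quo (hO b) (hR b)
  haveI := fun b => t2_quo (hO b) (hR b)
  intro _ _ _ _ _ _ ν _ hν Λ _ _ hΛ I _ α hα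
  exact MX.exN_of (@h) hν hΛ hα

end Vale.Agent.P092.H560.Mx
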