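import Vale.Agent.P092.H259.Mx.Fin1
import Vale.Agent.P092.H560.Mx.PNf

/-!
P092, project MIX (helper560; the proof is helper259's `mixStmt_of`): the literal of MIX for finitely
generated lattices, without the condition `n ≠ 0` at the discrete places.
-/

set_option linter.all false

open Set Topology Filter MeasureTheory Matrix

namespace Vale.Agent.P092.H560.Mx

open Vale.Agent.P092.VR (Ov IsRad)
open Vale.Agent.P092.H515.St (IsLattice)
open Vale.Agent.P092.SR.St (ICC SuperAll)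
open Vale.Agent.P092.MX (EM iM aM aM' pM ExN ExMHalf)
open Vale.Agent.P092.RC (PG)
open Vale.Agent.P092.H35.Mx (MinC)
open Vale.Agent.P092.H259.Mx (PMStmt KazT pq)

/-- the literal of project MIX for finitely generated lattices -/
def MixStmtF : Prop :=
  ∀ (J B : Type) [Fintype J] [Fintype B] [Nonempty J] [Nonempty B] (k : J → Type)
    [∀ j, NontriviallyNormedField (k j)] (N : J → ℕ) (M G : B → Type) [∀ b, Group (M b)]
    [∀ b, TopologicalSpace (M b)] [∀ b, Group (G b)] [∀ b, TopologicalSpace (G b)]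
    (φ : ∀ b, M b →* G b) (r : B → ℕ) (Γ : Subgroup ((∀ j, PG (k j) (N j + 1)) × ∀ b, G b)),
    ICC Γ → Group.FG Γ → (∀ b, Ov (φ b) (r b)) → (∀ b, MinC (G b)) → (∀ b, KazT (G b)) →
    (∀ j, ProperSpace (k j) ∧ UN.LocK (k j) ∧ 2 ≤ N j) →
    (∀ b, DenseRange fun γ : Γ => (γ : (∀ j, PG (k j) (N j + 1)) × ∀ b, G b).2 b) →
    (∀ j, DiscreteTopology
      (Set.range fun γ : Γ => (γ : (∀ j, PG (k j) (N j + 1)) × ∀ b, G b).1 j)) →
    IsLattice Γ → SuperAll Γ

/-- **The literal from the producer of the discrete places.** -/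
theorem mixStmtF_of (hJ : SX.Joints) (hM : PMStmt) : MixStmtF := by
  classical
  intro J B _ _ _ _ k _ N M G _ _ _ _ φ r Γ hicc hfg hov hmc hkz hk hd hdisc hlat
  haveI : ∀ j, ProperSpace (k j) := fun j => (hk j).1
  have hk' : ∀ j, H933.LocK (k j) := fun j => SN.lk ((UN.locK_iff _).1 (hk j).2.1)
  have hN' : ∀ j, 2 ≤ N j := fun j => (hk j).2.2
  letI : ∀ j, MeasurableSpace (k j) := fun j => borel _
  haveI : ∀ j, BorelSpace (k j) := fun j => ⟨rfl⟩
  haveI : ∀ b, IsTopologicalGroup (G b) := fun b => (hov b).top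
  haveI : ∀ b, LocallyCompactSpace (G b) := fun b => H333.V.Ov.lc (hov b)
  haveI : ∀ b, SecondCountableTopology (G b) := fun b => H333.V.Ov.sc (hov b)
  haveI : ∀ b, T2Space (G b) := fun b => H333.V.Ov.t2 (hov b)
  choose R hR using fun b => H333.V.exists_rad (hov b)
  haveI := fun b => (hR b).normal
  haveI := fun b => (hR b).fin
  haveI := fun b => H333.V.tg_quo (hov b) (hR b)
  haveI := fun b => H333.V.lc_quo (hov b) (hR b)
  haveI := fun b => H333.V.sc_quo (hov b) (hR b)
  haveI := fun b => H333.V.t2_quo (hov b) (hR b)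
  obtain ⟨l, _, _, hl, hEx⟩ := hM k (fun j => (Measure.addHaar : Measure (k j))) N (φ := φ)
    (r := r) R Γ hk' hN' hov hR hmc hkz hd hdisc hlat hicc
  have hE : ExN (iM k N G) Γ (pq Γ R) :=
    @exN_F J B _ _ _ k _ _ N M G _ _ _ _ _ _ _ _ φ r R _ (fun j => (hk j).2.1) hN' hov hR Γ hfg
      hicc hd hdisc hlat
  obtain ⟨j₀⟩ : Nonempty J := inferInstance
  have hA := MX.admP_M k N G hk' hN'
  haveI : ∀ j, T2Space (PG (k j) (N j + 1)) := fun j => H188.LatP.t2_pg _ _
  haveI : ∀ j, SecondCountableTopology (PG (k j) (N j + 1)) := fun j => H188.LatP.sc_pg _ _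
  haveI : ∀ j, LocallyCompactSpace (PG (k j) (N j + 1)) := fun j => H188.LatP.lc_pg _ _
  haveI : NoncompactSpace (EM k N G) := SNP.noncompact_of_adm (hA.adm j₀)
  exact MX.superAll_mix (fun b _ _ => H333.V.rinv_quo (hov b) (hR b) _) hA hl
    (fun i j => (hJ (k i) (l j) _ (hk' i) (hl j)).1)
    (fun i j => (hJ (k i) (l j) _ (hk' i) (hl j)).2) hEx hE hlat hicc

end Vale.Agent.P092.H560.Mx
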