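import Vale.Agent.P092.H890.Mul
import Vale.Agent.P092.H295.Trl

/-!
P092, [MIX] (M6), part 1 (helper560): multipliers from convolutions. For a calculus `Q` of
`C₀(G)`, `G` any locally compact group, and `f = φ ⋆ h` the family `Q (f (g γ ·))`, `g γ` in a
compact set, is a multiplier. No field, no manifold.
-/

set_option linter.all false

open scoped InnerProductSpace ENNReal Topology ZeroAtInfty
open Filter Topology ContinuousLinearMap MeasureTheory

namespace Vale.Agent.P092.H560.Mx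

open Vale.Agent.P092.H890 (Mult)
open Vale.Agent.P092.H295

section int

variable {G : Type} [TopologicalSpace G] [T2Space G] [MeasurableSpace G] [BorelSpace G]
  {μ : Measure G} [IsFiniteMeasureOnCompacts μ] {K : Type} [NormedAddCommGroup K] [InnerProductSpace ℂ K]
  [CompleteSpace K] {ι : Type}

/-- a superposition of operators with scalar families as coefficients -/
theorem mult_integral (S : Finset ι) {A : Set G} (hA : IsCompact A) (hAc : IsClosed A)
    {a : ι → G → ℂ} {T : G → (K →L[ℂ] K)} {P R : ℝ} (hP : 0 ≤ P) (hR : 0 ≤ R)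
    (ha : ∀ γ ∈ S, Continuous (a γ)) (hs : ∀ γ ∈ S, ∀ y, y ∉ A → a γ y = 0)
    (hb : ∀ γ ∈ S, ∀ y, ‖a γ y‖ ≤ P) (hT : Continuous T) (hTn : ∀ y, ‖T y‖ ≤ R) :
    Mult S (fun γ => ∫ y, a γ y • T y ∂μ) (P * R * μ.real A) := by
  refine ⟨by positivity, fun B c hc hB x => ?_⟩
  -- the vector valued function
  let F : G → PiLp 2 (fun _ : S => K) := fun y =>
    WithLp.toLp 2 (fun γ : S => a γ.1 y • B γ.1 (T y x))
  have hFc : Continuous F := by
    refine (PiLp.continuous_toLp 2 _).comp (continuous_pi fun γ => ?_)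
    refine (ha γ.1 γ.2).smul ?_
    exact (B γ.1).continuous.comp (hT.clm_apply continuous_const)
  have hFs : ∀ y, y ∉ A → F y = 0 := by
    intro y hy
    have : (fun γ : S => a γ.1 y • B γ.1 (T y x)) = 0 := by
      funext γ
      rw [hs γ.1 γ.2 y hy, zero_smul]
      rfl
    simp only [F, this, WithLp.toLp_zero]
  have hFi : Integrable F μ := hFc.integrable_of_hasCompactSupport
    (HasCompactSupport.intro hA hFs)
  have hFn : ∀ y, ‖F y‖ ≤ P * (Real.sqrt c * (R * ‖x‖)) := by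
    intro y
    have h1 : ‖F y‖ ^ 2 ≤ (P * (Real.sqrt c * (R * ‖x‖))) ^ 2 := by
      rw [PiLp.norm_sq_eq_of_L2]
      calc ∑ γ : S, ‖(F y) γ‖ ^ 2 = ∑ γ : S, ‖a γ.1 y • B γ.1 (T y x)‖ ^ 2 := rfl
        _ = ∑ γ ∈ S, ‖a γ y • B γ (T y x)‖ ^ 2 :=
            Finset.sum_coe_sort S (fun γ => ‖a γ y • B γ (T y x)‖ ^ 2)
        _ ≤ ∑ γ ∈ S, P ^ 2 * ‖B γ (T y x)‖ ^ 2 := by
            refine Finset.sum_le_sum fun γ hγ => ?_
            rw [norm_smul, mul_pow]
            have := hb γ hγ y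
            gcongr
        _ = P ^ 2 * ∑ γ ∈ S, ‖B γ (T y x)‖ ^ 2 := by rw [Finset.mul_sum]
        _ ≤ P ^ 2 * (c * (R * ‖x‖) ^ 2) := by
            have h2 := hB (T y x)
            have h3 : ‖T y x‖ ≤ R * ‖x‖ := (T y).le_of_opNorm_le (hTn y) x
            have h4 : c * ‖T y x‖ ^ 2 ≤ c * (R * ‖x‖) ^ 2 := by gcongr
            have h5 := h2.trans h4
            gcongr
        _ = _ := by
            rw [mul_pow P, mul_pow (Real.sqrt c), Real.sq_sqrt hc]
    exact le_of_sq_le_sq h1 (by positivity)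
  have hint : ‖∫ y, F y ∂μ‖ ≤ P * (Real.sqrt c * (R * ‖x‖)) * μ.real A := by
    have e : ∫ y, F y ∂μ = ∫ y in A, F y ∂μ := by
      rw [setIntegral_eq_integral_of_forall_compl_eq_zero fun y hy => hFs y hy]
    rw [e]
    exact norm_setIntegral_le_of_norm_le_const hA.measure_lt_top fun y _ => hFn y
  -- the coordinates
  have hco : ∀ γ (hγ : γ ∈ S), B γ ((∫ y, a γ y • T y ∂μ) x) = (∫ y, F y ∂μ) ⟨γ, hγ⟩ := by
    intro γ hγ
    have hi : Integrable (fun y => a γ y • T y) μ :=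
      ((ha γ hγ).smul hT).integrable_of_hasCompactSupport
        (HasCompactSupport.intro hA fun y hy => by
          change a γ y • T y = 0
          rw [hs γ hγ y hy, zero_smul])
    let L : (K →L[ℂ] K) →L[ℂ] K := (B γ).comp (ContinuousLinearMap.apply ℂ K x)
    have e1 : B γ ((∫ y, a γ y • T y ∂μ) x) = ∫ y, L (a γ y • T y) ∂μ :=
      (L.integral_comp_comm hi).symm
    let p : PiLp 2 (fun _ : S => K) →L[ℂ] K := PiLp.proj 2 (fun _ : S => K) ⟨γ, hγ⟩
    have e2 : (∫ y, F y ∂μ) ⟨γ, hγ⟩ = ∫ y, p (F y) ∂μ := (p.integral_comp_comm hFi).symm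
    rw [e1, e2]
    refine integral_congr_ae (Eventually.of_forall fun y => ?_)
    change B γ ((a γ y • T y) x) = a γ y • B γ (T y x)
    rw [ContinuousLinearMap.smul_apply, map_smul]
  calc ∑ γ ∈ S, ‖B γ ((∫ y, a γ y • T y ∂μ) x)‖ ^ 2
      = ∑ γ : S, ‖(∫ y, F y ∂μ) γ‖ ^ 2 := by
        rw [← Finset.sum_coe_sort S fun γ => ‖B γ ((∫ y, a γ y • T y ∂μ) x)‖ ^ 2]
        exact Finset.sum_congr rfl fun γ _ => by rw [hco γ.1 γ.2]
    _ = ‖∫ y, F y ∂μ‖ ^ 2 := (PiLp.norm_sq_eq_of_L2 _ _).symm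
    _ ≤ (P * (Real.sqrt c * (R * ‖x‖)) * μ.real A) ^ 2 := by gcongr
    _ = Real.sqrt c ^ 2 * (P * R * μ.real A) ^ 2 * ‖x‖ ^ 2 := by ring
    _ = _ := by rw [Real.sq_sqrt hc]

end int

section conv

variable {G : Type} [Group G] [TopologicalSpace G] [IsTopologicalGroup G] [LocallyCompactSpace G]
  [T2Space G] [MeasurableSpace G] [BorelSpace G] (μ : Measure G) [μ.IsHaarMeasure]

/-- the convolutions `φ ⋆ h`, `φ` continuous with compact support -/
def Cvs : Set C₀(G, ℂ) :=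
  {f | ∃ (φ : G → ℂ) (h : C₀(G, ℂ)), Continuous φ ∧ HasCompactSupport φ ∧
    f = ∫ y, φ y • ltr y h ∂μ}

theorem dense_cvs : Dense (Cvs μ) := by
  rw [Metric.dense_iff]
  intro ψ ε hε
  -- a neighbourhood
  have hc := (continuous_ltr ψ).tendsto 1
  have h1 : ∀ᶠ y in 𝓝 (1 : G), dist (ltr y ψ) (ltr 1 ψ) < ε / 2 :=
    hc (Metric.ball_mem_nhds _ (half_pos hε))
  obtain ⟨V, hVs, hVo, hV1⟩ := mem_nhds_iff.1 h1
  obtain ⟨φ, hφ1, hφ0, hφc, hφ⟩ := exists_continuous_one_zero_of_isCompact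
    (s := {(1 : G)}) (t := Vᶜ) isCompact_singleton hVo.isClosed_compl
    (by rw [Set.disjoint_singleton_left]; exact fun h => h hV1)
  have hpos : 0 < ∫ y, φ y ∂μ := by
    refine φ.continuous.integral_pos_of_hasCompactSupport_nonneg_nonzero (x := 1) hφc
      (fun y => (hφ y).1) ?_
    have := hφ1 (Set.mem_singleton (1 : G))
    rw [this]
    exact one_ne_zero
  set c : ℝ := ∫ y, φ y ∂μ with hcdef
  have hφi : Integrable (fun y => φ y) μ := φ.continuous.integrable_of_hasCompactSupport hφc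
  let χ : G → ℂ := fun y => ((φ y / c : ℝ) : ℂ)
  have hχc : Continuous χ := by fun_prop
  have hχs : HasCompactSupport χ := by
    refine hφc.comp_left (g := fun t : ℝ => ((t / c : ℝ) : ℂ)) ?_
    simp
  refine ⟨∫ y, χ y • ltr y ψ ∂μ, ?_, ⟨χ, ψ, hχc, hχs, rfl⟩⟩
  have hint : Integrable (fun y => χ y • ltr y ψ) μ :=
    (hχc.smul (continuous_ltr ψ)).integrable_of_hasCompactSupport hχs.smul_right
  have hint2 : Integrable (fun y => χ y • ψ) μ :=
    (hχc.smul continuous_const).integrable_of_hasCompactSupport hχs.smul_right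
  have hone : ∫ y, χ y • ψ ∂μ = ψ := by
    rw [integral_smul_const]
    have : ∫ y, χ y ∂μ = 1 := by
      have h2 : ∫ y, χ y ∂μ = ((∫ y, φ y / c ∂μ : ℝ) : ℂ) := integral_complex_ofReal
      rw [h2, integral_div, ← hcdef, div_self hpos.ne']
      simp
    rw [this, one_smul]
  rw [Metric.mem_ball, dist_eq_norm]
  have e : ∫ y, χ y • ltr y ψ ∂μ - ψ = ∫ y, χ y • (ltr y ψ - ψ) ∂μ := by
    have e0 : ∫ y, χ y • ltr y ψ ∂μ - ψ = ∫ y, χ y • ltr y ψ ∂μ - ∫ y, χ y • ψ ∂μ := by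
      rw [hone]
    rw [e0, ← integral_sub hint hint2]
    refine integral_congr_ae (Eventually.of_forall fun y => ?_)
    change χ y • ltr y ψ - χ y • ψ = χ y • (ltr y ψ - ψ)
    ext x
    simp only [ZeroAtInftyContinuousMap.sub_apply, ZeroAtInftyContinuousMap.smul_apply, smul_eq_mul]
    ring
  rw [e]
  have hle : ‖∫ y, χ y • (ltr y ψ - ψ) ∂μ‖ ≤ ∫ y, φ y / c * (ε / 2) ∂μ := by
    refine norm_integral_le_of_norm_le ((hφi.div_const c).mul_const _)
      (Eventually.of_forall fun y => ?_)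
    rw [norm_smul]
    have hn : ‖χ y‖ = φ y / c := by
      simp only [χ]
      rw [Complex.norm_real, Real.norm_eq_abs, abs_of_nonneg (div_nonneg (hφ y).1 hpos.le)]
    rw [hn]
    by_cases hy : y ∈ V
    · have h2 : dist (ltr y ψ) (ltr 1 ψ) < ε / 2 := hVs hy
      rw [ltr_one, dist_eq_norm] at h2
      have h3 : 0 ≤ φ y / c := div_nonneg (hφ y).1 hpos.le
      gcongr
    · have h0 : φ y = 0 := hφ0 hy
      rw [h0]
      simp
  refine lt_of_le_of_lt hle ?_
  rw [integral_mul_const, integral_div, ← hcdef, div_self hpos.ne', one_mul]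
  exact half_lt_self hε

/-- **multipliers from convolutions** -/
theorem mult_conv {f : C₀(G, ℂ)} (hf : f ∈ Cvs μ) {C : Set G} (hC : IsCompact C) :
    ∃ D : ℝ, 0 ≤ D ∧ ∀ (K : Type) [NormedAddCommGroup K] [InnerProductSpace ℂ K]
      [CompleteSpace K] (Q : C₀(G, ℂ) →⋆ₙₐ[ℂ] (K →L[ℂ] K)) (ι : Type) (S : Finset ι)
      (g : ι → G), (∀ γ ∈ S, g γ ∈ C) → Mult S (fun γ => Q (ltr (g γ)⁻¹ f)) D := by
  obtain ⟨φ, h, hφc, hφs, rfl⟩ := hf
  have hA0 : IsCompact ((fun p : G × G => p.1⁻¹ * p.2) '' (C ×ˢ tsupport φ)) :=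
    (hC.prod hφs).image (by fun_prop)
  set A := (fun p : G × G => p.1⁻¹ * p.2) '' (C ×ˢ tsupport φ) with hA
  obtain ⟨P, hP⟩ : ∃ P, ∀ y, ‖φ y‖ ≤ P := hφs.exists_bound_of_continuous hφc
  have hP0 : 0 ≤ P := (norm_nonneg _).trans (hP 1)
  refine ⟨P * ‖h‖ * μ.real A, by positivity, fun K _ _ _ Q ι S g hg => ?_⟩
  have hm := mult_integral (μ := μ) (K := K) S hA0 hA0.isClosed (a := fun γ y => φ (g γ * y))
    (T := fun y => Q (ltr y h)) (P := P) (R := ‖h‖) hP0 (norm_nonneg _)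
    (fun γ _ => by fun_prop) (fun γ hγ y hy => ?_) (fun γ _ y => hP _)
    ((continuous_map Q).comp (continuous_ltr h)) (fun y => ?_)
  · refine hm.congr fun γ hγ => ?_
    -- push `Q` and the translation through the integral
    have hi : Integrable (fun y => φ y • ltr y h) μ :=
      (hφc.smul (continuous_ltr h)).integrable_of_hasCompactSupport hφs.smul_right
    let Lt : C₀(G, ℂ) →L[ℂ] C₀(G, ℂ) := LinearMap.mkContinuous
      { toFun := fun c => ltr (g γ)⁻¹ c
        map_add' := fun c d => by ext x; simp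
        map_smul' := fun r c => by ext x; simp } 1 (fun c => by
          rw [one_mul]
          exact norm_le_of_forall (norm_nonneg _) fun x => norm_apply_le_norm c _)
    let QL : C₀(G, ℂ) →L[ℂ] (K →L[ℂ] K) :=
      ⟨{ toFun := Q, map_add' := map_add Q, map_smul' := map_smul Q }, continuous_map Q⟩
    have e1 : Q (ltr (g γ)⁻¹ (∫ y, φ y • ltr y h ∂μ)) =
        ∫ y, (QL.comp Lt) (φ y • ltr y h) ∂μ :=
      ((QL.comp Lt).integral_comp_comm hi).symm
    have e2 : ∀ y, (QL.comp Lt) (φ y • ltr y h) = φ y • Q (ltr ((g γ)⁻¹ * y) h) := by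
      intro y
      change Q (ltr (g γ)⁻¹ (φ y • ltr y h)) = _
      rw [ltr_mul, ← map_smul]
      congr 1
    rw [e1]
    simp_rw [e2]
    have e3 := integral_mul_left_eq_self (μ := μ)
      (fun y => φ y • Q (ltr ((g γ)⁻¹ * y) h)) (g γ)
    rw [← e3]
    refine integral_congr_ae (Eventually.of_forall fun y => ?_)
    change φ (g γ * y) • Q (ltr y h) = φ (g γ * y) • Q (ltr ((g γ)⁻¹ * (g γ * y)) h)
    rw [inv_mul_cancel_left]
  · by_contra hne
    refine hy ⟨(g γ, g γ * y), ⟨hg γ hγ, subset_tsupport _ hne⟩, ?_⟩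
    simp
  · refine (norm_map_le_norm Q _).trans (norm_le_of_forall (norm_nonneg _) fun x => ?_)
    exact norm_apply_le_norm h _

end conv

end Vale.Agent.P092.H560.Mx
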