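import Vale.Agent.P092.H560.Mx.Tr
import Vale.Agent.P092.VR.All
import Vale.Agent.P092.H333.FinQT
import Vale.Agent.P092.H133.Transp
import Vale.Agent.P092.H710.Mix.Glue
import Vale.Agent.P092.H710.Mix.OvO

/-!
P092, project MIX (helper560), row (R-NE): nonvanishing, ergodicity and escape at the places with
dense projection, for a lattice in a product of overgroups of factors, some of whose projections are
discrete. Family form.
-/

set_option linter.all false

open scoped InnerProductSpace Topology ENNReal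
open Filter ContinuousLinearMap MeasureTheory

namespace Vale.Agent.P092.H560.Mx

open Vale.Agent.P092.VR (Ov IsRad)
open Vale.Agent.P092.SR (Tri)
open Vale.Agent.P092.SR.St (ICC)
open Vale.Agent.P092.H333.Amp
open Vale.Agent.P092.H333.V
open Vale.Agent.P092.QC (MauU)
open Vale.Agent.P092.QT.NE (ev)
open Vale.Agent.P092.H962
open Vale.Agent.P092.H160 (Ell2)
open Vale.Agent.P092.H103 (AF)
open Vale.Agent.P092.QT.Q (Esc)

/-- A discrete range stays discrete modulo a finite normal subgroup. -/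
theorem disc_quo {Γ E : Type} [Group Γ] [Group E] [TopologicalSpace E] [IsTopologicalGroup E]
    [T2Space E] (R : Subgroup E) [R.Normal] [Finite R] (q : Γ →* E)
    (hd : DiscreteTopology (Set.range q)) :
    DiscreteTopology (Set.range ((QuotientGroup.mk' R).comp q)) := by
  have hd' : DiscreteTopology q.range := hd
  have hcl : IsClosed (q.range : Set E) := Subgroup.isClosed_of_discrete
  -- a neighbourhood of one for every element of `R`
  have key : ∀ r : R, ∃ W ∈ 𝓝 (1 : E), ∀ g : Γ, q g * r ∈ W → q g ∈ R := by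
    intro r
    by_cases hr : (r : E) ∈ q.range
    · have h1 : ({(1 : q.range)} : Set q.range) ∈ 𝓝 (1 : q.range) := by
        rw [nhds_discrete]
        exact rfl
      obtain ⟨W, hW, h2⟩ := mem_nhds_subtype _ _ _ |>.1 h1
      refine ⟨W, hW, fun g hg => ?_⟩
      have h3 : q g * r ∈ q.range := mul_mem ⟨g, rfl⟩ hr
      have h4 : (⟨q g * r, h3⟩ : q.range) ∈ ({(1 : q.range)} : Set q.range) := h2 hg
      have h5 : q g * r = 1 := congrArg Subtype.val h4
      rw [mul_eq_one_iff_eq_inv] at h5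
      rw [h5]
      exact inv_mem r.2
    · refine ⟨(fun x : E => x * (r : E)⁻¹) ⁻¹' (q.range : Set E)ᶜ, ?_, fun g hg => ?_⟩
      · refine (hcl.isOpen_compl.preimage (by fun_prop)).mem_nhds ?_
        change (1 : E) * (r : E)⁻¹ ∉ q.range
        rw [one_mul, inv_mem_iff]
        exact hr
      · exfalso
        apply hg
        change q g * r * (r : E)⁻¹ ∈ q.range
        rw [mul_inv_cancel_right]
        exact ⟨g, rfl⟩
  choose W hW hWr using key
  have hV : (⋂ r : R, W r) ∈ 𝓝 (1 : E) := Filter.iInter_mem.2 hW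
  have hU : (QuotientGroup.mk : E → E ⧸ R) '' (⋂ r : R, W r) ∈ 𝓝 (1 : E ⧸ R) := by
    have h1 : map (QuotientGroup.mk : E → E ⧸ R) (𝓝 1) = 𝓝 (1 : E ⧸ R) :=
      QuotientGroup.isOpenQuotientMap_mk.map_nhds_eq 1
    rw [← h1]
    exact image_mem_map hV
  have hS : DiscreteTopology ((QuotientGroup.mk' R).comp q).range := by
    refine discreteTopology_of_isOpen_singleton_one ?_
    rw [isOpen_singleton_iff_nhds_eq_pure, ← Filter.principal_singleton, le_antisymm_iff]
    refine ⟨?_, ?_⟩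
    · rw [le_principal_iff]
      refine mem_nhds_subtype _ _ _ |>.2 ⟨_, hU, ?_⟩
      rintro ⟨_, g, rfl⟩ ⟨w, hw, hwg⟩
      have h1 : (q g)⁻¹ * w ∈ R := QuotientGroup.eq.1 hwg.symm
      have h2 : q g * ((⟨(q g)⁻¹ * w, h1⟩ : R) : E) ∈ W ⟨(q g)⁻¹ * w, h1⟩ := by
        change q g * ((q g)⁻¹ * w) ∈ _
        rw [mul_inv_cancel_left]
        exact Set.mem_iInter.1 hw _
      have h3 := hWr _ g h2
      refine Subtype.ext ?_
      exact (QuotientGroup.eq_one_iff _).2 h3
    · rw [Filter.principal_singleton]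
      exact pure_le_nhds _
  exact hS

section fam

variable {Γ I : Type} [Group Γ] [Fintype I] {M E : I → Type} [∀ i, Group (M i)]
  [∀ i, TopologicalSpace (M i)] [∀ i, Group (E i)] [∀ i, TopologicalSpace (E i)]
  {φ : ∀ i, M i →* E i} {r : I → ℕ} {R : ∀ i, Subgroup (E i)}

/-- Nonvanishing for families of homomorphisms. -/
theorem neC_fam (h : ∀ i, Ov (φ i) (r i)) (hR : ∀ i, IsRad (φ i) (R i)) [∀ i, (R i).Normal]
    (q : ∀ i, Γ →* E i) (hinj : ∀ g, (∀ i, q i g = 1) → g = 1)
    (hlat : H515.St.IsLattice (MonoidHom.pi q).range) (hicc : ICC Γ) {κ κ' ℋ : Type} [Fintype κ]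
    [Fintype κ'] [NormedAddCommGroup ℋ] [InnerProductSpace ℂ ℋ] [CompleteSpace ℋ]
    {V A B : Γ →* (ℋ →L[ℂ] ℋ)} {ξ : κ → ℋ} {ξ' : κ' → ℋ} (hT : Tri V A B ξ)
    (hT' : Tri A V B ξ') (i : I) (hd : DenseRange (q i))
    (hE : ErgC ((QuotientGroup.mk' (R i)).comp (q i)) V A B)
    [∀ i, MeasurableSpace (E i ⧸ R i)] [∀ i, BorelSpace (E i ⧸ R i)]
    (μ : ∀ i, Measure (E i ⧸ R i)) [∀ i, (μ i).IsHaarMeasure] :
    ∃ j, NeC ((QuotientGroup.mk' (R j)).comp (q j)) ((QuotientGroup.mk' (R i)).comp (q i)) V A B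
      (μ j) := by
  haveI a0 := fun i => (h i).qf.top
  haveI a1 := fun i => (h i).qf.lc
  haveI a2 := fun i => (h i).qf.sc
  haveI a3 := fun i => (h i).qf.t2
  haveI b0 := fun i => (h i).top
  haveI b1 := fun i => Ov.lc (h i)
  haveI b2 := fun i => Ov.sc (h i)
  haveI b3 := fun i => Ov.t2 (h i)
  haveI c0 := fun i => tg_quo (h i) (hR i)
  haveI c1 := fun i => lc_quo (h i) (hR i)
  haveI c2 := fun i => sc_quo (h i) (hR i)
  haveI c3 := fun i => t2_quo (h i) (hR i)
  haveI := fun i => (hR i).fin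
  haveI : ∀ i, (μ i).IsMulRightInvariant := fun i => rinv_quo (h i) (hR i) _
  letI : ∀ i, MeasurableSpace (M i) := fun i => borel _
  haveI : ∀ i, BorelSpace (M i) := fun i => ⟨rfl⟩
  have hi : Function.Injective (MonoidHom.pi q) := by
    rw [injective_iff_map_eq_one]
    intro g hg
    exact hinj g fun i => congrFun hg i
  obtain ⟨e, he⟩ : ∃ e : Γ ≃* (MonoidHom.pi q).range, ∀ g i, (e g).1 i = q i g :=
    ⟨MonoidHom.ofInjective hi, fun g i => rfl⟩
  have hev : ∀ j, ev (MonoidHom.pi q).range j =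
      (q j).comp (e.symm : (MonoidHom.pi q).range →* Γ) := by
    intro j
    refine MonoidHom.ext fun x => ?_
    obtain ⟨g, rfl⟩ := e.surjective x
    change (e g).1 j = q j (e.symm (e g))
    rw [he, e.symm_apply_apply]
  have hpj : ∀ j, (QuotientGroup.mk' (R j)).comp (ev (MonoidHom.pi q).range j) =
      ((QuotientGroup.mk' (R j)).comp (q j)).comp (e.symm : (MonoidHom.pi q).range →* Γ) := by
    intro j
    rw [hev]
    rfl
  choose C hCh using fun i => (h i).qf.chn
  have hd' : DenseRange (ev (MonoidHom.pi q).range i) := by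
    have h1 : Set.range (ev (MonoidHom.pi q).range i) = Set.range (q i) := by
      rw [hev]
      exact e.symm.surjective.range_comp (q i)
    intro x
    rw [h1]
    exact hd x
  have hE' : ErgC ((QuotientGroup.mk' (R i)).comp (ev (MonoidHom.pi q).range i))
      (V.comp (e.symm : (MonoidHom.pi q).range →* Γ))
      (A.comp (e.symm : (MonoidHom.pi q).range →* Γ))
      (B.comp (e.symm : (MonoidHom.pi q).range →* Γ)) := by
    rw [hpj]
    exact ergC_comp e.symm hE
  obtain ⟨j, hj⟩ := VR.neC_over (Γ := (MonoidHom.pi q).range) (fun i => (h i).inj)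
    (fun i => (h i).cont) (fun i => (h i).opn) (fun i => (h i).normal) (fun i => (h i).fin)
    (⟨hlat.disc, hlat.covol⟩ : H515.IsLattice (MonoidHom.pi q).range)
    (fun g hg => H133.icc_equiv e hicc g hg) (tri_comp e.symm hT) (tri_comp e.symm hT') C
    (fun i => (h i).qf.pos) (fun i => (h i).qf.tgt)
    (fun i => MauU.of (h i).qf.hmg (hCh i (h i).qf.pos)) (fun i => QuotientGroup.mk' (R i))
    (fun i => continuous_quotient_mk') μ i hd' (R i) hE'
  refine ⟨j, neC_of_comp e.symm ?_⟩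
  rw [hpj, hpj] at hj
  exact hj

/-- Escape. -/
theorem esc_fam (h : ∀ i, Ov (φ i) (r i)) (hR : ∀ i, IsRad (φ i) (R i)) [∀ i, (R i).Normal]
    (q : ∀ i, Γ →* E i) (hlat : H515.St.IsLattice (MonoidHom.pi q).range) (l : I) :
    ∃ w : ℕ → Γ, (∀ i, i ≠ l →
        Tendsto (fun n => (QuotientGroup.mk' (R i)).comp (q i) (w n)) atTop (𝓝 1)) ∧
      Tendsto (fun n => (QuotientGroup.mk' (R l)).comp (q l) (w n)) atTop
        (cocompact (E l ⧸ R l)) := by
  haveI b0 := fun i => (h i).top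
  haveI b1 := fun i => Ov.lc (h i)
  haveI b2 := fun i => Ov.sc (h i)
  haveI b3 := fun i => Ov.t2 (h i)
  haveI c0 := fun i => tg_quo (h i) (hR i)
  haveI c1 := fun i => lc_quo (h i) (hR i)
  haveI c2 := fun i => sc_quo (h i) (hR i)
  haveI := fun i => (hR i).fin
  have hL := VR.H978.lat_quo R q hlat fun i => (Set.toFinite (R i : Set (E i))).isCompact
  exact H971.exists_esc (fun i => (QuotientGroup.mk' (R i)).comp (q i)) hL l
    (VR.H978.not_compact (h l) (R l) (hR l) (facV_quo (h l) (hR l)))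

/-- The projections are infinite. -/
theorem inf_fam (h : ∀ i, Ov (φ i) (r i)) (hR : ∀ i, IsRad (φ i) (R i)) [∀ i, (R i).Normal]
    (q : ∀ i, Γ →* E i) (hlat : H515.St.IsLattice (MonoidHom.pi q).range) (l : I) :
    (Set.range ((QuotientGroup.mk' (R l)).comp (q l))).Infinite := by
  intro hf
  obtain ⟨w, -, hw⟩ := esc_fam h hR q hlat l
  obtain ⟨n, hn⟩ := (hw.eventually hf.isCompact.compl_mem_cocompact).exists
  exact hn ⟨w n, rfl⟩

/-- Ergodicity at a dense place. -/
theorem erg_fam (h : ∀ i, Ov (φ i) (r i)) (hR : ∀ i, IsRad (φ i) (R i)) [∀ i, (R i).Normal]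
    (q : ∀ i, Γ →* E i) (hinj : ∀ g, (∀ i, q i g = 1) → g = 1)
    (hlat : H515.St.IsLattice (MonoidHom.pi q).range) (hicc : ICC Γ) (i : I)
    (hd : DenseRange (q i)) {Λ J : Type} [Group Λ] [Countable Λ] [Fintype J]
    {α β : Γ → (Ell2 (J × Λ) →L[ℂ] Ell2 (J × Λ))} (hα : AF α) (hβ : AF β) (hΛ : ICC Λ) :
    ErgC ((QuotientGroup.mk' (R i)).comp (q i)) (V3 hα hα hβ) (A3R hα hα hβ) (B3R hα hα hβ) := by
  haveI b0 := fun i => (h i).top
  haveI b1 := fun i => Ov.lc (h i)
  haveI b2 := fun i => Ov.sc (h i)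
  haveI b3 := fun i => Ov.t2 (h i)
  haveI c0 := fun i => tg_quo (h i) (hR i)
  have hp : DenseRange ((QuotientGroup.mk' (R i)).comp (q i)) :=
    (QuotientGroup.mk'_surjective (R i)).denseRange.comp hd QuotientGroup.continuous_mk
  rcases (h i).qf.erg with hc | ht
  · haveI := nn_fin (R := R i) (h i).fin
    exact VR.ergC_conn_over (NN (φ i) (R i)) (nn_open (h i).opn) (conn_nn (h i) (hR i) hc)
      (facS_nn (h i) (hR i)) hicc hΛ hα hα hβ hp
  · exact TV628.ergC_tdV (VR.tdV_quo (h i) (hR i) ht) hicc hα hα hβ hΛ hp fun U hU g hg =>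
      VR.H978.ricc_quo_open h R hR (fun i => facV_quo (h i) (hR i)) q hinj hlat hicc i hd U
        hU hg

/-- **Nonvanishing at a dense place with a target which is not discrete.** -/
theorem neMix_fam (h : ∀ i, Ov (φ i) (r i)) (hR : ∀ i, IsRad (φ i) (R i)) [∀ i, (R i).Normal]
    (q : ∀ i, Γ →* E i) (hinj : ∀ g, (∀ i, q i g = 1) → g = 1)
    (hlat : H515.St.IsLattice (MonoidHom.pi q).range) (hicc : ICC Γ) (i : I)
    (hd : DenseRange (q i)) [∀ i, MeasurableSpace (E i ⧸ R i)] [∀ i, BorelSpace (E i ⧸ R i)]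
    (μ : ∀ i, Measure (E i ⧸ R i)) [∀ i, (μ i).IsHaarMeasure] {Λ J : Type} [Group Λ] [Countable Λ]
    [Fintype J] {α β : Γ → (Ell2 (J × Λ) →L[ℂ] Ell2 (J × Λ))} (hα : AF α) (hβ : AF β)
    (hΛ : ICC Λ) :
    ∃ j, ¬ DiscreteTopology (Set.range (q j)) ∧
      NeC ((QuotientGroup.mk' (R j)).comp (q j)) ((QuotientGroup.mk' (R i)).comp (q i))
        (V3 hα hα hβ) (A3R hα hα hβ) (B3R hα hα hβ) (μ j) := by
  haveI b0 := fun i => (h i).top
  haveI b1 := fun i => Ov.lc (h i)
  haveI b2 := fun i => Ov.sc (h i)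
  haveI b3 := fun i => Ov.t2 (h i)
  haveI c0 := fun i => tg_quo (h i) (hR i)
  haveI := fun i => (hR i).fin
  have hE := erg_fam h hR q hinj hlat hicc i hd hα hβ hΛ
  haveI hcΓ : Countable Γ := by
    haveI := hlat.disc
    haveI : Countable (MonoidHom.pi q).range := H790.countable_of_discrete _
    have hi : Function.Injective (MonoidHom.pi q).rangeRestrict := by
      rw [injective_iff_map_eq_one]
      intro g hg
      exact hinj g fun i => congrFun (congrArg Subtype.val hg) i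
    exact hi.countable
  obtain ⟨m, m', ξ, hT⟩ := exists_tri hα hα hβ hΛ
  obtain ⟨n, n', ξ', hT'⟩ := exists_tri' hα hα hβ hΛ
  obtain ⟨j, hj⟩ := neC_fam h hR q hinj hlat hicc hT hT' i hd hE μ
  refine ⟨j, fun hdj => ?_, hj⟩
  refine H710.Mix.not_neC hicc hT hT' (disc_quo (R j) (q j) hdj) (inf_fam h hR q hlat j) ?_ hE
    (H710.Mix.ov_open (h i) (hR i)) hj
  exact (QuotientGroup.mk'_surjective (R i)).denseRange.comp hd QuotientGroup.continuous_mk

end fam

end Vale.Agent.P092.H560.Mx
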