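import Vale.Agent.P092.H333.NeQ
import Vale.Agent.P092.H333.ErgQ

/-!
P092, project MIX (helper560): transport of frames, ergodicity and nonvanishing along an
isomorphism of the group.
-/

set_option linter.all false

open scoped InnerProductSpace Topology
open Filter ContinuousLinearMap MeasureTheory

namespace Vale.Agent.P092.H560.Mx

open Vale.Agent.P092.SR (Tri)
open Vale.Agent.P092.H333.Amp (NeC NeF ErgC)

variable {Γ Γ' G H ℋ : Type} [Group Γ] [Group Γ'] [Group G] [TopologicalSpace G]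
  [MeasurableSpace G] [Group H] [TopologicalSpace H] [NormedAddCommGroup ℋ]
  [InnerProductSpace ℂ ℋ] [CompleteSpace ℋ]

theorem tri_comp (e : Γ' ≃* Γ) {V A B : Γ →* (ℋ →L[ℂ] ℋ)} {ι : Type} [Fintype ι] {ξ : ι → ℋ}
    (h : Tri V A B ξ) :
    Tri (V.comp (e : Γ' →* Γ)) (A.comp (e : Γ' →* Γ)) (B.comp (e : Γ' →* Γ)) ξ where
  adjV g := by
    change adjoint (V (e g)) = V (e g⁻¹)
    rw [h.adjV, map_inv e]
  adj₁ g := by
    change adjoint (A (e g)) = A (e g⁻¹)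
    rw [h.adj₁, map_inv e]
  adj₂ g := by
    change adjoint (B (e g)) = B (e g⁻¹)
    rw [h.adj₂, map_inv e]
  comm₁ g k := h.comm₁ _ _
  comm₂ g k := h.comm₂ _ _
  comm₁₂ g k := h.comm₁₂ _ _
  ne := h.ne
  frame η := by
    have h1 := h.frame η
    have e1 : (ι × Γ' × Γ') ≃ (ι × Γ × Γ) :=
      (Equiv.refl ι).prodCongr (e.toEquiv.prodCongr e.toEquiv)
    exact (((Equiv.refl ι).prodCongr (e.toEquiv.prodCongr e.toEquiv)).hasSum_iff
      (f := fun p : ι × Γ × Γ => ‖⟪A p.2.1 (B p.2.2 (ξ p.1)), η⟫_ℂ‖ ^ 2)).2 h1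

theorem ergC_comp (e : Γ' ≃* Γ) {κ : Γ →* H} {V A B : Γ →* (ℋ →L[ℂ] ℋ)} (h : ErgC κ V A B) :
    ErgC (κ.comp (e : Γ' →* Γ)) (V.comp (e : Γ' →* Γ)) (A.comp (e : Γ' →* Γ))
      (B.comp (e : Γ' →* Γ)) := by
  intro x hA hB hc
  refine h x (fun g => ?_) (fun g => ?_) fun ζ ε hε => ?_
  · obtain ⟨g, rfl⟩ := e.surjective g
    exact hA g
  · obtain ⟨g, rfl⟩ := e.surjective g
    exact hB g
  · obtain ⟨W, hW, h1⟩ := hc ζ ε hε
    refine ⟨W, hW, fun v hv => ?_⟩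
    obtain ⟨v, rfl⟩ := e.surjective v
    have h2 := h1 v hv
    change ‖(V (e v) * x * V (e v⁻¹) - x) ζ‖ ≤ ε at h2
    rw [map_inv e] at h2
    exact h2

theorem neC_of_comp (e : Γ' ≃* Γ) {p : Γ →* G} {κ : Γ →* H} {V A B : Γ →* (ℋ →L[ℂ] ℋ)}
    {μ : Measure G}
    (h : NeC (p.comp (e : Γ' →* Γ)) (κ.comp (e : Γ' →* Γ)) (V.comp (e : Γ' →* Γ))
      (A.comp (e : Γ' →* Γ)) (B.comp (e : Γ' →* Γ)) μ) : NeC p κ V A B μ := by
  obtain ⟨b, hb, hb0⟩ := h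
  refine ⟨b, ⟨fun a y => ?_, fun c y => ?_, hb.bdd, hb.rcont, fun ε hε => ?_, hb.l2⟩, hb0⟩
  · obtain ⟨a, rfl⟩ := e.surjective a
    have h2 := hb.eqA a y
    change b (p (e a) * y) = A (e a) * b y * A (e a⁻¹) at h2
    rw [map_inv e] at h2
    exact h2
  · obtain ⟨c, rfl⟩ := e.surjective c
    have h2 := hb.eqB c y
    change b y = B (e c) * b y * B (e c⁻¹) at h2
    rw [map_inv e] at h2
    exact h2
  · obtain ⟨W, hW, h1⟩ := hb.acont ε hε
    refine ⟨W, hW, fun v hv x => ?_⟩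
    obtain ⟨v, rfl⟩ := e.surjective v
    have h2 := h1 v hv x
    change ‖V (e v) * b x * V (e v⁻¹) - b x‖ ≤ ε at h2
    rw [map_inv e] at h2
    exact h2

end Vale.Agent.P092.H560.Mx
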