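import Vale.Agent.P092.H560.Mx.Conv
import Vale.Agent.P092.H943.SX2

/-!
P092, [MIX] (M6), part 2 (helper560): X1 / X12 for an abstract letter. One operator `B` with a
multiplier condition; then a calculus of `C₀(G')`, `G'` any locally compact group.
-/

set_option linter.all false

open scoped InnerProductSpace ENNReal LinearAlgebra.Projectivization Matrix ZeroAtInfty
open Filter Topology ContinuousLinearMap MeasureTheory TopologicalSpace

namespace Vale.Agent.P092.H560.Mx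

open Vale.Agent.P092.SD (Ms UC)
open Vale.Agent.P092.RC (Cm TRN Moore GG PG YY y0 ct)
open Vale.Agent.P092.SN (CY CG inc NInc bw un nm NW Att act PH UD NWA actG fp fh Prv Adm)
open Vale.Agent.P092.H790.CTA (ORBG SIZEG csm of_poly mul_zero_of_dom)
open Vale.Agent.P092.H790.CT (PicL)
open Vale.Agent.P092.H596.N (tendsto_un ph_size nm_pos cap_op_u exists_room act_apply)
open Vale.Agent.P092.H890 (Mult)
open Vale.Agent.P092.H100.Gr (Gr)
open Vale.Agent.P092.H644.Gr3 (p1 hyp p1_inj)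
open Vale.Agent.P092.H584.X (ct_bw_fix ct_un_fix exists_y0 lam_inv_mul)
open Vale.Agent.P092.SX (LegN CalN ClsN)
open Vale.Agent.P092.H295 (ltr ltr_apply ltr_star)

section x1

variable {kS : Type} [NontriviallyNormedField kS] [ProperSpace kS] [MeasurableSpace kS]
  [BorelSpace kS] {μ : Measure kS} [IsFiniteMeasureOnCompacts μ] [μ.IsOpenPosMeasure]
  {k : Type} [NontriviallyNormedField k] [ProperSpace k] {N : ℕ} {E Γ K : Type}
  [Group E] [TopologicalSpace E] [Group Γ] [NormedAddCommGroup K] [InnerProductSpace ℂ K]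
  [CompleteSpace K] {w : kSˣ} {ι : GG kS N →* E} {a a' : E →* PG kS (N + 1)}
  {π : E →* (K →L[ℂ] K)} {lam : Γ →* (K →L[ℂ] K)} {W : Set (K →L[ℂ] K)} {Ω : K}
  {m : Set Γ → (K →L[ℂ] K)} {q : Γ → GG k N} {Z : ℝ → Set Γ}
  {Ec F : YY kS N → (CY k N →⋆ₐ[ℂ] (K →L[ℂ] K))}

/-- **(X1) for one operator `B`**: the conjugates `λ(γ)⁻¹ B* λ(γ)`, `γ ∈ Z R`, are multipliers. -/
theorem x1_op (hA : Adm ι a a') (hP : PicL π lam W Ω) (hM : Ms lam W Ω m) (hUC : UC π W Ω m)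
    (hph : PH q) (hud : ∀ R, UD q (Z R))
    (horb : ∀ {j : Fin (N + 1)} (hj : (0 : Fin (N + 1)) ≠ j), ∃ ρ : ℝ, 0 < ρ ∧ ρ < 1 ∧
      ORBG μ (ι (bw w)) (fun s => ι (un hj s)) ρ π lam W Ω)
    (hsize : SIZEG (ι (bw w)) π Ω m fun γ => nm (q γ))
    (hdom : ∀ (g : GG kS N) (u : CY k N) (A : Set (YY k N)), IsOpen A → tsupport u ⊆ A →
      ∀ ζ : K, ∀ ε > 0, ∃ R : ℝ, ∀ T > 0, ∀ᶠ t : ℕ in atTop,
        ‖Ec (g • y0) u ζ‖ ≤ ‖u‖ * ‖m (NWA q Z R T A) (π (ι (g * bw w ^ t * g⁻¹))⁻¹ ζ)‖ + ε)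
    (fcm : ∀ x f, Cm W (F x f))
    (fcov : ∀ γ x f, lam γ * F x f * lam γ⁻¹ = F x (act (ct (q γ)) f))
    (fpcov : ∀ e x f, π e * F x f * π e⁻¹ = F (a' e • x) f)
    {B : K →L[ℂ] K} (cm : Cm W B) (pc : ∀ g, π (ι g) * B = B * π (ι g))
    (hB : ∀ R, ∃ D, ∀ S : Finset Γ, (∀ γ ∈ S, γ ∈ Z R) →
      Mult S (fun γ => lam γ⁻¹ * adjoint B * lam γ) D)
    {c M : YY kS N} (hc : inc c M) {u v : CY k N} (huv : NInc (tsupport u) (tsupport v)) :
    Ec c u * B * F M v = 0 := by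
  obtain ⟨g, rfl⟩ := exists_y0 (by linarith [hA.hN]) c
  obtain ⟨j, hj⟩ : ∃ j : Fin (N + 1), (0 : Fin (N + 1)) ≠ j :=
    ⟨Fin.last N, by
      intro h0
      have := congrArg Fin.val h0
      have h2 := hA.hN
      simp at this
      omega⟩
  obtain ⟨V, hV, hAV, hVB⟩ := exists_room (isClosed_tsupport (u : YY k N → ℂ))
    (isClosed_tsupport (v : YY k N → ℂ)) huv
  -- hyperplanes through `g • y0`
  obtain ⟨M₀, hM₀⟩ : ∃ M₀, M = ct g • M₀ := ⟨(ct g)⁻¹ • M, (smul_inv_smul _ _).symm⟩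
  have hinc : ∀ (x : GG kS N) (p l : YY kS N), inc (x • p) (ct x • l) ↔ inc p l := by
    intro x p l
    have := hA.ort (ι x) p l
    rwa [hA.comp, hA.comp'] at this
  have hM0 : inc y0 M₀ := by
    rw [hM₀, hinc] at hc
    exact hc
  have hfix : ∀ x : GG kS N, ct x • M₀ = M₀ → Commute (F M v) (π (ι (g * x * g⁻¹))) := by
    intro x hx
    have h1 := fpcov (ι (g * x * g⁻¹)) M v
    have h2 : a' (ι (g * x * g⁻¹)) • M = M := by
      rw [hA.comp', hM₀, smul_smul, ← map_mul, inv_mul_cancel_right, map_mul, mul_smul, hx]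
    rw [h2] at h1
    have h3 : π (ι (g * x * g⁻¹))⁻¹ * π (ι (g * x * g⁻¹)) = 1 := by
      rw [← map_mul, inv_mul_cancel, map_one]
    change F M v * _ = _ * F M v
    calc F M v * π (ι (g * x * g⁻¹))
        = (π (ι (g * x * g⁻¹)) * F M v * π (ι (g * x * g⁻¹))⁻¹) * π (ι (g * x * g⁻¹)) := by
          rw [h1]
      _ = _ := by rw [mul_assoc, h3, mul_one]
  have hE : ∀ x : GG kS N, Commute B (π (ι x)) := fun x => (pc x).symm
  rw [mul_assoc]
  refine H943.SX1.emz (μ := μ) (Z := Z) (B := B * F M v) hA hP hM hUC hph horb hsize hdom hj ?_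
    ((hE _).mul_left (hfix _ (ct_bw_fix w hM0)))
    (fun s => (hE _).mul_left (hfix _ (ct_un_fix hj s hM0))) hV hAV fun R => ?_
  · intro w' hw'
    rw [mul_assoc, fcm M v w' hw', ← mul_assoc, cm w' hw', mul_assoc]
  · obtain ⟨T₀, hT₀, hcap⟩ := cap_op_u (K := K) (f := star v) (A := V)
      (by linarith [hA.hN] : 0 < N) hud (by
        intro x hx l hl
        refine hVB x hx l ?_
        have e : tsupport ((star v : CY k N) : YY k N → ℂ) = tsupport (v : YY k N → ℂ) := by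
          unfold tsupport
          congr 1
          ext y
          simp
        rwa [e] at hl)
    obtain ⟨C, hC, hcap⟩ := hcap T₀ le_rfl R
    obtain ⟨D, hmul⟩ := hB R
    refine ⟨T₀, hT₀, C * D ^ 2 * ‖Ω‖ ^ 2, 1, fun J hJ S hS => ?_⟩
    have h1 := (hmul S fun γ hγ => (hS γ hγ).1.1).2
      (fun γ => F M (act (ct (q γ))⁻¹ (star v))) (C * (1 + J)) (by positivity)
      (fun x => hcap J S hJ hS (F M) x) Ω
    refine le_trans (le_of_eq ?_) (h1.trans (le_of_eq (by ring)))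
    refine Finset.sum_congr rfl fun γ hγ => ?_
    congr 1
    have e1 : adjoint (B * F M v) = F M (star v) * adjoint B := by
      change star (B * F M v) = _ * star B
      rw [star_mul, ← map_star]
    have e4 := lam_inv_mul (p := fun γ => ct (q γ)) (fun γ f => fcov γ M f) γ (star v)
    have h3 : lam γ * lam γ⁻¹ = 1 := by rw [← map_mul, mul_inv_cancel, map_one]
    have e2 : adjoint (B * F M v) * lam γ =
        lam γ * (F M (act (ct (q γ))⁻¹ (star v)) * (lam γ⁻¹ * adjoint B * lam γ)) := by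
      calc adjoint (B * F M v) * lam γ = F M (star v) * (lam γ * lam γ⁻¹) * adjoint B * lam γ := by
            rw [e1, h3, mul_one]
        _ = (F M (star v) * lam γ) * (lam γ⁻¹ * adjoint B * lam γ) := by simp only [mul_assoc]
        _ = _ := by rw [e4, mul_assoc]
    have e5 : adjoint (B * F M v) (lam γ Ω) = lam γ (F M (act (ct (q γ))⁻¹ (star v))
        ((lam γ⁻¹ * adjoint B * lam γ) Ω)) := DFunLike.congr_fun e2 Ω
    rw [e5]
    exact Vale.Agent.P092.H790.CT.lam_norm hP γ _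

/-- **(X12) for one operator `B`.** -/
theorem x12_op {G : ∀ j, Gr kS (Fin (N + 1)) j → (CG k N j →⋆ₐ[ℂ] (K →L[ℂ] K))}
    (hL : LegN μ w ι a a' π lam W Ω m q Z Ec F) (hG : CalN ι π lam W q Ec F G)
    (hK : H218.NC.Key₁ G) {B : K →L[ℂ] K} (cm : Cm W B)
    (pc : ∀ g, π (ι g) * B = B * π (ι g))
    (hB : ∀ R, ∃ D, ∀ S : Finset Γ, (∀ γ ∈ S, γ ∈ Z R) →
      Mult S (fun γ => lam γ⁻¹ * adjoint B * lam γ) D) (c : YY kS N) (u : CY k N) :
    Commute B (Ec c u) := by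
  obtain ⟨u', hu'⟩ : ∃ u' : CG k N 1, fp u' = u :=
    ⟨u.comp ⟨H644.Gr3.p1H.symm, H644.Gr3.p1H.symm.continuous⟩, by
      ext x
      change u (H644.Gr3.p1H.symm (p1 x)) = u x
      rw [← H644.Gr3.p1H_apply, Homeomorph.symm_apply_apply]⟩
  rw [← hu', ← hG.pnt]
  refine H943.x2_point hL.adm.hN hG.cal hK B (p1 c) (fun M hM v g hvg => ?_) u'
  obtain ⟨M', rfl⟩ := H644.Gr3.hyp_surj M
  rw [hG.pnt, hG.top]
  refine x1_op (μ := μ) (Z := Z) hL.adm (H34.XN.picL hL.pic) hL.ms hL.uc hL.ph hL.ud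
    hL.orb hL.size hL.e.dom hL.f.cm hL.f.cov hL.f.pcov cm pc hB (H644.Gr3.p1_le_hyp.1 hM) ?_
  intro x hx l hl hxl
  have h1 : p1 x ∈ tsupport v := tsupport_comp_subset_preimage v H644.Gr3.p1_cont hx
  have h2 : hyp l ∈ tsupport g := tsupport_comp_subset_preimage g H644.Gr3.hyp_cont hl
  exact hvg _ h1 _ h2 (H644.Gr3.p1_le_hyp.2 hxl)

/-- **(M6)**: a calculus of `C₀(G')`, `G'` any locally compact group, whose coordinate `q'` is
bounded on every `Z R`, commutes with the point calculi of the leg. -/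
theorem x12_lc {G : ∀ j, Gr kS (Fin (N + 1)) j → (CG k N j →⋆ₐ[ℂ] (K →L[ℂ] K))}
    (hL : LegN μ w ι a a' π lam W Ω m q Z Ec F) (hG : CalN ι π lam W q Ec F G)
    (hK : H218.NC.Key₁ G) {G' : Type} [Group G'] [TopologicalSpace G'] [IsTopologicalGroup G']
    [LocallyCompactSpace G'] [T2Space G'] {q' : Γ → G'}
    (hq' : ∀ R, ∃ C : Set G', IsCompact C ∧ ∀ γ ∈ Z R, q' γ ∈ C)
    {Q' : C₀(G', ℂ) →⋆ₙₐ[ℂ] (K →L[ℂ] K)} (cm : ∀ ψ, Cm W (Q' ψ))
    (pc : ∀ g ψ, π (ι g) * Q' ψ = Q' ψ * π (ι g))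
    (cov : ∀ γ (ψ ψ' : C₀(G', ℂ)), (∀ x, ψ' x = ψ ((q' γ)⁻¹ * x)) →
      lam γ * Q' ψ * lam γ⁻¹ = Q' ψ') (c : YY kS N) (u : CY k N) (ψ : C₀(G', ℂ)) :
    Commute (Q' ψ) (Ec c u) := by
  letI : MeasurableSpace G' := borel _
  haveI : BorelSpace G' := ⟨rfl⟩
  have hcl : IsClosed {ψ : C₀(G', ℂ) | Commute (Q' ψ) (Ec c u)} := by
    have h1 := Vale.Agent.P092.H295.continuous_map Q'
    exact isClosed_eq (h1.mul continuous_const) (continuous_const.mul h1)
  have hd : Dense {ψ : C₀(G', ℂ) | star ψ ∈ Cvs (Measure.haar : Measure G')} := by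
    have := (dense_cvs (Measure.haar : Measure G')).preimage
      (f := fun ψ : C₀(G', ℂ) => star ψ) (Homeomorph.mk
        (Equiv.mk star star star_star star_star) continuous_star continuous_star).isOpenMap
    exact this
  have hmem : ψ ∈ closure {ψ : C₀(G', ℂ) | Commute (Q' ψ) (Ec c u)} := by
    refine closure_mono (fun f hf => ?_) (hd ψ)
    refine x12_op (μ := μ) hL hG hK (cm f) (fun g => pc g f) (fun R => ?_) c u
    obtain ⟨C, hC, hCZ⟩ := hq' R
    obtain ⟨D, -, hm⟩ := mult_conv (Measure.haar : Measure G') hf hC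
    refine ⟨D, fun S hS => (hm K Q' Γ S q' fun γ hγ => hCZ γ (hS γ hγ)).congr fun γ hγ => ?_⟩
    have e1 := cov γ (ltr (q' γ)⁻¹ (star f)) (star f) fun x => by
      rw [ltr_apply, inv_inv, mul_inv_cancel_left]
    have e2 : adjoint (Q' f) = Q' (star f) := by
      rw [map_star]
      rfl
    have h3 : lam γ⁻¹ * lam γ = 1 := by rw [← map_mul, inv_mul_cancel, map_one]
    rw [e2, ← e1]
    calc Q' (ltr (q' γ)⁻¹ (star f))
        = (lam γ⁻¹ * lam γ) * Q' (ltr (q' γ)⁻¹ (star f)) * (lam γ⁻¹ * lam γ) := by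
          rw [h3, one_mul, mul_one]
      _ = _ := by simp only [mul_assoc]
  rwa [hcl.closure_eq] at hmem

end x1

end Vale.Agent.P092.H560.Mx
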